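import Mathlib

/-!
Symplectic ball packings of a ball: the basic notions.
-/

open scoped ContDiff

namespace Vale.Agent.P209

variable {n k : ℕ}

/-- The standard symplectic form `∑ dx_j ∧ dy_j` on `ℂ^n`. -/
noncomputable def omega0 (u v : Fin n → ℂ) : ℝ :=
  ∑ j, ((u j).re * (v j).im - (u j).im * (v j).re)

/-- The closed ball of capacity `R`. -/
def capBall (n : ℕ) (R : ℝ) : Set (Fin n → ℂ) := {z | Real.pi * ∑ j, ‖z j‖ ^ 2 ≤ R}

/-- The open ball of capacity `R`. -/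
def capBallOpen (n : ℕ) (R : ℝ) : Set (Fin n → ℂ) := {z | Real.pi * ∑ j, ‖z j‖ ^ 2 < R}

/-- `f` is a symplectic embedding of the closed ball of capacity `r`, defined on an open
neighbourhood of that ball. -/
def IsSympEmb (r : ℝ) (f : (Fin n → ℂ) → (Fin n → ℂ)) : Prop :=
  ∃ U : Set (Fin n → ℂ), IsOpen U ∧ capBall n r ⊆ U ∧ ContDiffOn ℝ ∞ f U ∧ Set.InjOn f U ∧
    ∀ z ∈ U, ∀ u v, omega0 (fderiv ℝ f z u) (fderiv ℝ f z v) = omega0 u v

/-- The balls of capacities `r i` pack symplectically into the open ball of capacity `R`. -/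
def Packs (n : ℕ) (R : ℝ) (r : Fin k → ℝ) : Prop :=
  ∃ f : Fin k → (Fin n → ℂ) → (Fin n → ℂ),
    (∀ i, IsSympEmb (r i) (f i) ∧ f i '' capBall n (r i) ⊆ capBallOpen n R) ∧
    Pairwise fun i j => Disjoint (f i '' capBall n (r i)) (f j '' capBall n (r j))

end Vale.Agent.P209
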