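import Mathlib

/-!
Smoothness of `x ↦ ∫ t in 0..1, F (x, t)`.
-/

open MeasureTheory Set Filter
open scoped Topology ContDiff

namespace Vale.Agent.P209

variable {E : Type} [NormedAddCommGroup E] [NormedSpace ℝ E] [FiniteDimensional ℝ E]

lemma hasFDerivAt_int01 {G : Type} [NormedAddCommGroup G] [NormedSpace ℝ G] [CompleteSpace G]
    {F : E × ℝ → G} (hF : ContDiff ℝ 1 F) (x₀ : E) :
    HasFDerivAt (fun x => ∫ t in (0:ℝ)..1, F (x, t))
      (∫ t in (0:ℝ)..1, (fderiv ℝ F (x₀, t)).comp (ContinuousLinearMap.inl ℝ E ℝ)) x₀ := by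
  have hc : Continuous F := hF.continuous
  have hd : Continuous (fderiv ℝ F) := hF.continuous_fderiv one_ne_zero
  set D : E × ℝ → (E →L[ℝ] G) :=
    fun p => (fderiv ℝ F p).comp (ContinuousLinearMap.inl ℝ E ℝ) with hD
  have hDc : Continuous D := hd.clm_comp continuous_const
  have hK : IsCompact (Metric.closedBall x₀ 1 ×ˢ Icc (0:ℝ) 1) :=
    (isCompact_closedBall x₀ 1).prod isCompact_Icc
  obtain ⟨C, hC⟩ := hK.exists_bound_of_continuousOn hDc.continuousOn
  have hmk : ∀ x : E, Continuous fun t : ℝ => F (x, t) := fun x =>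
    hc.comp (continuous_const.prodMk continuous_id)
  refine intervalIntegral.hasFDerivAt_integral_of_dominated_of_fderiv_le
    (F := fun x t => F (x, t)) (F' := fun x t => D (x, t)) (bound := fun _ => C)
    (Metric.closedBall_mem_nhds x₀ one_pos) ?_ ?_ ?_ ?_ ?_ ?_
  · exact Eventually.of_forall fun x => (hmk x).aestronglyMeasurable
  · exact (hmk x₀).intervalIntegrable 0 1
  · exact (hDc.comp (continuous_const.prodMk continuous_id)).aestronglyMeasurable
  · refine Eventually.of_forall fun t ht x hx => hC (x, t) ⟨hx, ?_⟩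
    have ht' : t ∈ Ioc (0:ℝ) 1 := by simpa [uIoc_of_le zero_le_one] using ht
    exact ⟨ht'.1.le, ht'.2⟩
  · exact intervalIntegrable_const
  · refine Eventually.of_forall fun t _ x _ => ?_
    exact ((hF.differentiable one_ne_zero).differentiableAt.hasFDerivAt).comp x
      (hasFDerivAt_prodMk_left x t)

lemma contDiff_int01_nat (n : ℕ) : ∀ {G : Type} [NormedAddCommGroup G] [NormedSpace ℝ G]
    [CompleteSpace G] {F : E × ℝ → G}, ContDiff ℝ ∞ F →
    ContDiff ℝ (n : ℕ∞) (fun x => ∫ t in (0:ℝ)..1, F (x, t)) := by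
  induction n with
  | zero =>
    intro G _ _ _ F hF
    apply contDiff_zero.mpr
    apply continuous_iff_continuousAt.mpr
    intro x
    exact (hasFDerivAt_int01 (hF.of_le (by simp)) x).continuousAt
  | succ n ih =>
    intro G _ _ _ F hF
    have h1 : ContDiff ℝ 1 F := hF.of_le (by simp)
    have hD : ContDiff ℝ ∞ (fun p : E × ℝ =>
        (fderiv ℝ F p).comp (ContinuousLinearMap.inl ℝ E ℝ)) :=
      (hF.fderiv_right (m := ∞) (by simp)).clm_comp contDiff_const
    have hf : ∀ x, HasFDerivAt (fun x => ∫ t in (0:ℝ)..1, F (x, t))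
      (∫ t in (0:ℝ)..1, (fderiv ℝ F (x, t)).comp (ContinuousLinearMap.inl ℝ E ℝ)) x :=
      fun x => hasFDerivAt_int01 h1 x
    rw [show ((n + 1 : ℕ) : ℕ∞) = ((n : ℕ∞) + 1) by simp]
    push_cast
    rw [contDiff_succ_iff_fderiv]
    refine ⟨fun x => (hf x).differentiableAt, by simp, ?_⟩
    rw [show fderiv ℝ (fun x => ∫ t in (0:ℝ)..1, F (x, t)) = fun x =>
      ∫ t in (0:ℝ)..1, (fderiv ℝ F (x, t)).comp (ContinuousLinearMap.inl ℝ E ℝ) from
      funext fun x => (hf x).fderiv]
    exact ih hD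

lemma contDiff_int01 {G : Type} [NormedAddCommGroup G] [NormedSpace ℝ G] [CompleteSpace G]
    {F : E × ℝ → G} (hF : ContDiff ℝ ∞ F) :
    ContDiff ℝ ∞ (fun x => ∫ t in (0:ℝ)..1, F (x, t)) :=
  contDiff_infty.mpr fun n => contDiff_int01_nat n hF

end Vale.Agent.P209
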