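import Mathlib
import Vale.Agent.P209.ParamInt

/-!
A positive smooth density on the plane is moved to Lebesgue measure by a
circle-preserving diffeomorphism `Theta`, given by a closed formula.
-/

open MeasureTheory Set Filter Complex
open scoped Topology ContDiff

namespace Vale.Agent.P209

noncomputable section

/-- The standard area form on `ℂ`. -/
def cform (u v : ℂ) : ℝ := u.re * v.im - u.im * v.re

lemma cform_map (L : ℂ →L[ℝ] ℂ) (u v : ℂ) :
    cform (L u) (L v) = cform (L 1) (L Complex.I) * cform u v := by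
  have key : ∀ z : ℂ, L z = z.re • L 1 + z.im • L Complex.I := by
    intro z
    have h : z = z.re • (1 : ℂ) + z.im • Complex.I := by simp [Complex.re_add_im]
    conv_lhs => rw [h]
    rw [map_add, map_smul, map_smul]
  rw [key u, key v]
  simp only [cform, Complex.add_re, Complex.add_im, Complex.smul_re, Complex.smul_im, smul_eq_mul]
  ring

/-- Rotation by the fraction `t` of a full turn. -/
def rot (t : ℝ) : ℂ := Complex.exp (((2 * Real.pi * t : ℝ) : ℂ) * Complex.I)

lemma rot_zero : rot 0 = 1 := by simp [rot]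

lemma rot_add (a b : ℝ) : rot (a + b) = rot a * rot b := by
  rw [rot, rot, rot, ← Complex.exp_add]
  congr 1
  push_cast
  ring

lemma rot_one : rot 1 = 1 := by
  rw [rot, mul_one]
  push_cast
  exact Complex.exp_two_pi_mul_I

lemma rot_add_one (a : ℝ) : rot (a + 1) = rot a := by rw [rot_add, rot_one, mul_one]

lemma norm_rot (t : ℝ) : ‖rot t‖ = 1 := by
  rw [rot, Complex.norm_exp_ofReal_mul_I]

lemma contDiff_ofReal' : ContDiff ℝ ∞ (fun x : ℝ => (x : ℂ)) := Complex.ofRealCLM.contDiff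

lemma contDiff_rot : ContDiff ℝ ∞ rot :=
  ((contDiff_ofReal'.comp (contDiff_const.mul contDiff_id)).mul contDiff_const).cexp

/-- Data: a smooth positive density with infinite mass. -/
structure Dens where
  toFun : ℂ → ℝ
  pos : ∀ w, 0 < toFun w
  smooth : ContDiff ℝ ∞ toFun

variable (ρ : Dens)

/-- Mean of the density on the circle through `w`. -/
def mu (w : ℂ) : ℝ := ∫ t in (0:ℝ)..1, ρ.toFun (rot t * w)

/-- Mean of the density on the disc through `w`. -/
def nu (w : ℂ) : ℝ := ∫ v in (0:ℝ)..1, 2 * v * mu ρ ((v : ℂ) * w)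

/-- Relative excess on the circle through `w`. -/
def hh (w : ℂ) : ℝ := ρ.toFun w / mu ρ w - 1

/-- The angular correction. -/
def ang (w : ℂ) : ℝ := 2 * Real.pi * ∫ t in (0:ℝ)..1, t * hh ρ (rot t * w)

/-- The factor of the circle-preserving map. -/
def fac (w : ℂ) : ℂ := (Real.sqrt (nu ρ w) : ℂ) * Complex.exp ((ang ρ w : ℂ) * Complex.I)

/-- The circle-preserving map carrying the density to Lebesgue measure. -/
def Theta (w : ℂ) : ℂ := w * fac ρ w

lemma contDiff_rotmul : ContDiff ℝ ∞ (fun p : ℂ × ℝ => rot p.2 * p.1) :=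
  (contDiff_rot.comp contDiff_snd).mul contDiff_fst

lemma contDiff_mu : ContDiff ℝ ∞ (mu ρ) :=
  contDiff_int01 (F := fun p : ℂ × ℝ => ρ.toFun (rot p.2 * p.1))
    (ρ.smooth.comp contDiff_rotmul)

lemma mu_pos (w : ℂ) : 0 < mu ρ w := by
  apply intervalIntegral.intervalIntegral_pos_of_pos_on ?_ (fun t _ => ρ.pos _) zero_lt_one
  exact (ρ.smooth.continuous.comp ((contDiff_rot.continuous).mul continuous_const)).intervalIntegrable _ _

lemma contDiff_nu : ContDiff ℝ ∞ (nu ρ) :=
  contDiff_int01 (F := fun p : ℂ × ℝ => 2 * p.2 * mu ρ ((p.2 : ℂ) * p.1))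
    ((contDiff_const.mul contDiff_snd).mul
      ((contDiff_mu ρ).comp ((contDiff_ofReal'.comp contDiff_snd).mul contDiff_fst)))

lemma nu_pos (w : ℂ) : 0 < nu ρ w := by
  apply intervalIntegral.intervalIntegral_pos_of_pos_on ?_ ?_ zero_lt_one
  · exact ((continuous_const.mul continuous_id).mul ((contDiff_mu ρ).continuous.comp
      (Complex.continuous_ofReal.mul continuous_const))).intervalIntegrable _ _
  · intro t ht
    exact mul_pos (mul_pos two_pos ht.1) (mu_pos ρ _)

lemma contDiff_hh : ContDiff ℝ ∞ (hh ρ) :=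
  (ρ.smooth.div (contDiff_mu ρ) fun w => (mu_pos ρ w).ne').sub contDiff_const

lemma contDiff_ang : ContDiff ℝ ∞ (ang ρ) :=
  contDiff_const.mul (contDiff_int01 (F := fun p : ℂ × ℝ => p.2 * hh ρ (rot p.2 * p.1))
    (contDiff_snd.mul ((contDiff_hh ρ).comp contDiff_rotmul)))

lemma contDiff_fac : ContDiff ℝ ∞ (fac ρ) :=
  (contDiff_ofReal'.comp ((contDiff_nu ρ).sqrt fun w => (nu_pos ρ w).ne')).mul
    (((contDiff_ofReal'.comp (contDiff_ang ρ))).mul contDiff_const).cexp

lemma contDiff_Theta : ContDiff ℝ ∞ (Theta ρ) := contDiff_id.mul (contDiff_fac ρ)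

lemma mu_rot (T : ℝ) (w : ℂ) : mu ρ (rot T * w) = mu ρ w := by
  have hp : Function.Periodic (fun s => ρ.toFun (rot s * w)) 1 := fun s => by
    simp only [rot_add_one]
  calc mu ρ (rot T * w) = ∫ t in (0:ℝ)..1, ρ.toFun (rot (t + T) * w) := by
        unfold mu
        refine intervalIntegral.integral_congr fun t _ => ?_
        rw [rot_add, mul_assoc]
    _ = ∫ s in (0:ℝ) + T..1 + T, ρ.toFun (rot s * w) :=
        intervalIntegral.integral_comp_add_right (fun s => ρ.toFun (rot s * w)) T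
    _ = mu ρ w := by
        rw [zero_add, add_comm (1:ℝ) T, hp.intervalIntegral_add_eq T 0, zero_add]
        rfl

lemma nu_rot (T : ℝ) (w : ℂ) : nu ρ (rot T * w) = nu ρ w := by
  unfold nu
  refine intervalIntegral.integral_congr fun v _ => ?_
  rw [show (v : ℂ) * (rot T * w) = rot T * ((v : ℂ) * w) by ring, mu_rot]

/-- Mass of the disc of relative radius `l`, divided by `π ‖w‖ ^ 2`. -/
def rad (w : ℂ) (l : ℝ) : ℝ := ∫ u in (0:ℝ)..l, 2 * u * mu ρ ((u : ℂ) * w)

lemma hasDerivAt_rad (w : ℂ) (l : ℝ) :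
    HasDerivAt (rad ρ w) (2 * l * mu ρ ((l : ℂ) * w)) l := by
  have hc : Continuous fun u : ℝ => 2 * u * mu ρ ((u : ℂ) * w) :=
    (continuous_const.mul continuous_id).mul ((contDiff_mu ρ).continuous.comp
      (Complex.continuous_ofReal.mul continuous_const))
  exact hc.integral_hasStrictDerivAt 0 l |>.hasDerivAt

lemma rad_eq (w : ℂ) (l : ℝ) : rad ρ w l = l ^ 2 * nu ρ ((l : ℂ) * w) := by
  have h := intervalIntegral.smul_integral_comp_mul_left
    (a := (0:ℝ)) (b := 1) (fun u : ℝ => 2 * u * mu ρ ((u : ℂ) * w)) l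
  simp only [mul_zero, mul_one, smul_eq_mul] at h
  unfold rad nu
  rw [← h, ← intervalIntegral.integral_const_mul, ← intervalIntegral.integral_const_mul]
  refine intervalIntegral.integral_congr fun v _ => ?_
  rw [show ((l * v : ℝ) : ℂ) * w = (v : ℂ) * ((l : ℂ) * w) by push_cast; ring]
  ring

lemma fderiv_nu_self (w : ℂ) : fderiv ℝ (nu ρ) w w = 2 * mu ρ w - 2 * nu ρ w := by
  have hd : HasDerivAt (fun l : ℝ => (l : ℂ) * w) w 1 := by
    simpa using (Complex.ofRealCLM.hasDerivAt (x := (1:ℝ))).mul_const w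
  have h1 : HasDerivAt (fun l : ℝ => nu ρ ((l : ℂ) * w)) (fderiv ℝ (nu ρ) w w) 1 := by
    have hn : HasFDerivAt (nu ρ) (fderiv ℝ (nu ρ) w) (((1:ℝ) : ℂ) * w) := by
      simpa using ((contDiff_nu ρ).differentiable (by simp)).differentiableAt.hasFDerivAt
    exact hn.comp_hasDerivAt (1:ℝ) hd
  have h2 : HasDerivAt (fun l : ℝ => l ^ 2 * nu ρ ((l : ℂ) * w))
      (2 * nu ρ w + fderiv ℝ (nu ρ) w w) 1 := by
    have := (hasDerivAt_pow 2 (1:ℝ)).mul h1
    refine (this.congr_deriv ?_).congr_of_eventuallyEq (Eventually.of_forall fun l => rfl)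
    simp
  have h3 := hasDerivAt_rad ρ w 1
  rw [show rad ρ w = fun l : ℝ => l ^ 2 * nu ρ ((l : ℂ) * w) from funext (rad_eq ρ w)] at h3
  have := h2.unique h3
  simp only [Complex.ofReal_one, one_mul, mul_one] at this
  linarith

lemma hasDerivAt_rot_mul (w : ℂ) (T : ℝ) :
    HasDerivAt (fun T : ℝ => rot T * w) ((2 * Real.pi : ℝ) • (Complex.I * (rot T * w))) T := by
  have h : HasDerivAt (fun T : ℝ => (((2 * Real.pi * T : ℝ) : ℂ) * Complex.I))
      (((2 * Real.pi : ℝ) : ℂ) * Complex.I) T := by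
    have := (Complex.ofRealCLM.hasDerivAt (x := 2 * Real.pi * T)).scomp T
      ((hasDerivAt_id T).const_mul (2 * Real.pi))
    simpa [Function.comp_def] using this.mul_const Complex.I
  have h2 := (h.cexp).mul_const w
  refine h2.congr_deriv ?_
  rw [Complex.real_smul]
  simp only [rot]
  ring

lemma hasDerivAt_ang_rot (w : ℂ) (T : ℝ) :
    HasDerivAt (fun T : ℝ => ang ρ (rot T * w)) (2 * Real.pi * hh ρ (rot T * w)) T := by
  set h : ℝ → ℝ := fun s => hh ρ (rot s * w) with hh_def
  have hc : Continuous h := (contDiff_hh ρ).continuous.comp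
    ((contDiff_rot.continuous).mul continuous_const)
  have hp : Function.Periodic h 1 := fun s => by simp only [hh_def, rot_add_one]
  have hzero : ∫ s in (0:ℝ)..1, h s = 0 := by
    simp only [hh_def, hh, mu_rot]
    rw [intervalIntegral.integral_sub, intervalIntegral.integral_div,
      intervalIntegral.integral_const]
    · have := (mu_pos ρ w).ne'
      simp only [sub_zero, smul_eq_mul, mul_one]
      rw [show (∫ s in (0:ℝ)..1, ρ.toFun (rot s * w)) = mu ρ w from rfl, div_self this]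
      ring
    · exact ((ρ.smooth.continuous.comp ((contDiff_rot.continuous).mul continuous_const)).div_const
        _).intervalIntegrable _ _
    · exact intervalIntegrable_const
  have key : ∀ T : ℝ, (∫ t in (0:ℝ)..1, t * h (t + T)) =
      (∫ s in (0:ℝ)..T + 1, s * h s) - ∫ s in (0:ℝ)..T, s * h s := by
    intro T
    have e1 : (∫ t in (0:ℝ)..1, t * h (t + T)) = ∫ s in T..T + 1, (s - T) * h s := by
      have := intervalIntegral.integral_comp_add_right (a := (0:ℝ)) (b := 1)
        (fun s => (s - T) * h s) T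
      simp only [add_sub_cancel_right] at this
      rw [this, zero_add, add_comm 1 T]
    have e2 : ∫ s in T..T + 1, h s = 0 := by
      rw [hp.intervalIntegral_add_eq T 0, zero_add, hzero]
    have e3 : ∫ s in T..T + 1, (s - T) * h s = ∫ s in T..T + 1, s * h s := by
      simp only [sub_mul]
      rw [intervalIntegral.integral_sub, intervalIntegral.integral_const_mul, e2, mul_zero,
        sub_zero]
      · exact (continuous_id.mul hc).intervalIntegrable _ _
      · exact (continuous_const.mul hc).intervalIntegrable _ _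
    have cg : Continuous fun s => s * h s := continuous_id.mul hc
    rw [e1, e3, intervalIntegral.integral_interval_sub_left (cg.intervalIntegrable _ _)
      (cg.intervalIntegrable _ _)]
  have hG : ∀ x : ℝ, HasDerivAt (fun x => ∫ s in (0:ℝ)..x, s * h s) (x * h x) x := fun x =>
    ((continuous_id.mul hc).integral_hasStrictDerivAt 0 x).hasDerivAt
  have hfun : (fun T : ℝ => ang ρ (rot T * w)) = fun T =>
      2 * Real.pi * ((∫ s in (0:ℝ)..T + 1, s * h s) - ∫ s in (0:ℝ)..T, s * h s) := by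
    funext T
    rw [← key T]
    unfold ang
    congr 1
    refine intervalIntegral.integral_congr fun t _ => ?_
    simp only [hh_def, rot_add, mul_assoc]
  rw [hfun]
  refine (((hG (T + 1)).comp_add_const T 1).sub (hG T)).const_mul (2 * Real.pi) |>.congr_deriv ?_
  rw [hp T]
  simp only [hh_def]
  ring

lemma fderiv_ang_I (w : ℂ) : fderiv ℝ (ang ρ) w (Complex.I * w) = hh ρ w := by
  have hn : HasFDerivAt (ang ρ) (fderiv ℝ (ang ρ) w) (rot 0 * w) := by
    simpa [rot_zero] using ((contDiff_ang ρ).differentiable (by simp)).differentiableAt.hasFDerivAt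
  have h1 := hn.comp_hasDerivAt (0:ℝ) (hasDerivAt_rot_mul w 0)
  have := h1.unique (hasDerivAt_ang_rot ρ w 0)
  simp only [rot_zero, one_mul, map_smul, smul_eq_mul] at this
  exact mul_left_cancel₀ (by positivity) this

lemma fderiv_nu_I (w : ℂ) : fderiv ℝ (nu ρ) w (Complex.I * w) = 0 := by
  have hn : HasFDerivAt (nu ρ) (fderiv ℝ (nu ρ) w) (rot 0 * w) := by
    simpa [rot_zero] using ((contDiff_nu ρ).differentiable (by simp)).differentiableAt.hasFDerivAt
  have h1 := hn.comp_hasDerivAt (0:ℝ) (hasDerivAt_rot_mul w 0)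
  have h2 : HasDerivAt (fun T : ℝ => nu ρ (rot T * w)) 0 0 := by
    simp only [nu_rot]; exact hasDerivAt_const _ _
  have := h1.unique h2
  simp only [rot_zero, one_mul, map_smul, smul_eq_mul] at this
  exact (mul_eq_zero.1 this).resolve_left (by positivity)

lemma fderiv_Theta_apply (w v : ℂ) :
    fderiv ℝ (Theta ρ) w v = fac ρ w * (v + w * (((fderiv ℝ (nu ρ) w v / (2 * nu ρ w) : ℝ) : ℂ)
      + ((fderiv ℝ (ang ρ) w v : ℝ) : ℂ) * Complex.I)) := by
  have hn := ((contDiff_nu ρ).differentiable (by simp)).differentiableAt (x := w) |>.hasFDerivAt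
  have ha := ((contDiff_ang ρ).differentiable (by simp)).differentiableAt (x := w) |>.hasFDerivAt
  have h1 := Complex.ofRealCLM.hasFDerivAt.comp w (hn.sqrt (nu_pos ρ w).ne')
  have h2 := ((Complex.ofRealCLM.hasFDerivAt.comp w ha).mul_const Complex.I).cexp
  have h3 := (hasFDerivAt_id w).mul (h1.mul h2)
  have h4 : HasFDerivAt (Theta ρ) _ w := h3
  rw [h4.fderiv]
  have hs : (Real.sqrt (nu ρ w)) ^ 2 = nu ρ w := Real.sq_sqrt (nu_pos ρ w).le
  have hs0 : (Real.sqrt (nu ρ w)) ≠ 0 := (Real.sqrt_pos.2 (nu_pos ρ w)).ne'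
  have hsc : ((nu ρ w : ℝ) : ℂ) = ((Real.sqrt (nu ρ w) : ℝ) : ℂ) ^ 2 := by rw [← Complex.ofReal_pow, hs]
  have hs0' : ((Real.sqrt (nu ρ w) : ℝ) : ℂ) ≠ 0 := by exact_mod_cast hs0
  simp only [add_apply, smul_apply, smul_eq_mul,
    ContinuousLinearMap.comp_apply, Complex.ofRealCLM_apply, Function.comp_apply, id_eq,
    ContinuousLinearMap.id_apply, fac, Pi.mul_apply]
  push_cast
  rw [hsc]
  field_simp
  ring

lemma det_Theta (w u v : ℂ) :
    cform (fderiv ℝ (Theta ρ) w u) (fderiv ℝ (Theta ρ) w v) = ρ.toFun w * cform u v := by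
  have hn := nu_pos ρ w
  have hF : Complex.normSq (fac ρ w) = nu ρ w := by
    rw [fac, Complex.normSq_mul, Complex.normSq_ofReal, ← sq, Real.sq_sqrt hn.le,
      Complex.normSq_eq_norm_sq, Complex.norm_exp_ofReal_mul_I]
    ring
  have hmul : ∀ a b c : ℂ, cform (c * a) (c * b) = Complex.normSq c * cform a b := by
    intro a b c
    simp only [cform, Complex.mul_re, Complex.mul_im, Complex.normSq_apply]
    ring
  rcases eq_or_ne w 0 with h0 | h0
  · subst h0
    simp only [fderiv_Theta_apply, zero_mul, add_zero, hmul, hF]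
    congr 1
    simp only [nu, mu, mul_zero, intervalIntegral.integral_const, sub_zero, one_smul,
      intervalIntegral.integral_mul_const]
    rw [intervalIntegral.integral_const_mul, integral_id]
    norm_num
  · have e1 := cform_map (fderiv ℝ (Theta ρ) w) w (Complex.I * w)
    have e2 : cform w (Complex.I * w) = Complex.normSq w := by
      simp [cform, Complex.normSq_apply]
    have hq : 0 < Complex.normSq w := Complex.normSq_pos.2 h0
    have e3 : cform (fderiv ℝ (Theta ρ) w w) (fderiv ℝ (Theta ρ) w (Complex.I * w)) =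
        ρ.toFun w * Complex.normSq w := by
      rw [fderiv_Theta_apply, fderiv_Theta_apply, hmul, hF, fderiv_nu_self, fderiv_ang_I,
        fderiv_nu_I]
      have hm := (mu_pos ρ w).ne'
      simp only [cform, hh, Complex.add_re, Complex.add_im, Complex.mul_re, Complex.mul_im,
        Complex.ofReal_re, Complex.ofReal_im, Complex.I_re, Complex.I_im, Complex.normSq_apply]
      field_simp
      ring
    rw [e1, e2] at e3
    rw [cform_map, mul_right_cancel₀ hq.ne' e3]

lemma Theta_rot (T : ℝ) (w : ℂ) :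
    Theta ρ (rot T * w) = w * (Real.sqrt (nu ρ w) : ℂ) *
      Complex.exp (((2 * Real.pi * T + ang ρ (rot T * w) : ℝ) : ℂ) * Complex.I) := by
  rw [Theta, fac, nu_rot, Complex.ofReal_add, add_mul, Complex.exp_add]
  simp only [rot]
  ring

lemma strictMono_phase (w : ℂ) :
    StrictMono fun T : ℝ => 2 * Real.pi * T + ang ρ (rot T * w) := by
  apply strictMono_of_hasDerivAt_pos
    (f' := fun T => 2 * Real.pi + 2 * Real.pi * hh ρ (rot T * w))
  · intro T
    simpa using ((hasDerivAt_id' T).const_mul (2 * Real.pi)).fun_add (hasDerivAt_ang_rot ρ w T)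
  · intro T
    have : 0 < ρ.toFun (rot T * w) / mu ρ (rot T * w) := div_pos (ρ.pos _) (mu_pos ρ _)
    have : 0 < Real.pi * (ρ.toFun (rot T * w) / mu ρ (rot T * w)) := mul_pos Real.pi_pos this
    simp only [hh]
    nlinarith

lemma exists_rot (w : ℂ) : ∃ T ∈ Ico (0:ℝ) 1, w = rot T * (‖w‖ : ℂ) := by
  rcases eq_or_ne w 0 with rfl | h
  · exact ⟨0, ⟨le_rfl, one_pos⟩, by simp⟩
  · refine ⟨Int.fract (w.arg / (2 * Real.pi)), ⟨Int.fract_nonneg _, Int.fract_lt_one _⟩, ?_⟩
    have hp : (Real.pi : ℂ) ≠ 0 := by exact_mod_cast Real.pi_ne_zero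
    conv_lhs => rw [← Complex.norm_mul_exp_arg_mul_I w, mul_comm]
    congr 1
    rw [rot, Complex.exp_eq_exp_iff_exists_int]
    refine ⟨⌊w.arg / (2 * Real.pi)⌋, ?_⟩
    rw [Int.fract]
    push_cast
    field_simp
    ring

lemma norm_Theta (w : ℂ) : ‖Theta ρ w‖ ^ 2 = rad ρ 1 ‖w‖ := by
  obtain ⟨T, -, hT⟩ := exists_rot w
  rw [rad_eq, mul_one]
  conv_lhs => rw [hT]
  rw [Theta_rot]
  simp only [norm_mul, Complex.norm_exp_ofReal_mul_I, Complex.norm_real, Real.norm_eq_abs, mul_one,
    abs_norm]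
  rw [mul_pow, sq_abs, Real.sq_sqrt (nu_pos ρ _).le]

lemma rad_strictMono : StrictMonoOn (rad ρ 1) (Ici 0) := by
  apply strictMonoOn_of_hasDerivWithinAt_pos (f' := fun l => 2 * l * mu ρ ((l : ℂ) * 1))
    (convex_Ici 0)
  · exact fun l _ => (hasDerivAt_rad ρ 1 l).continuousAt.continuousWithinAt
  · exact fun l _ => (hasDerivAt_rad ρ 1 l).hasDerivWithinAt
  · intro l hl
    rw [interior_Ici] at hl
    exact mul_pos (mul_pos two_pos hl) (mu_pos ρ _)

lemma rad_zero : rad ρ 1 0 = 0 := by simp [rad]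

lemma phase_add_one (w : ℂ) (T : ℝ) :
    2 * Real.pi * (T + 1) + ang ρ (rot (T + 1) * w) =
      2 * Real.pi * T + ang ρ (rot T * w) + 2 * Real.pi := by
  rw [rot_add_one]; ring

lemma Theta_injective : Function.Injective (Theta ρ) := by
  intro a b hab
  have hn : ‖a‖ = ‖b‖ := by
    apply (rad_strictMono ρ).injOn (norm_nonneg a) (norm_nonneg b)
    rw [← norm_Theta, ← norm_Theta, hab]
  obtain ⟨S, hS, ha⟩ := exists_rot a
  obtain ⟨T, hT, hb⟩ := exists_rot b
  rw [← hn] at hb
  rcases eq_or_ne (‖a‖ : ℂ) 0 with h0 | h0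
  · rw [ha, hb, h0]; simp
  rw [ha, hb, Theta_rot, Theta_rot] at hab
  have hs : ((Real.sqrt (nu ρ (‖a‖ : ℂ)) : ℝ) : ℂ) ≠ 0 := by
    exact_mod_cast (Real.sqrt_pos.2 (nu_pos ρ _)).ne'
  have he := mul_left_cancel₀ (mul_ne_zero h0 hs) hab
  obtain ⟨k, hk⟩ := Complex.exp_eq_exp_iff_exists_int.1 he
  have hk' := congrArg Complex.im hk
  simp at hk'
  have mono := strictMono_phase ρ (‖a‖ : ℂ)
  set Φ := fun T : ℝ => 2 * Real.pi * T + ang ρ (rot T * (‖a‖ : ℂ)) with hΦ
  have e : Φ S = Φ T + k * (2 * Real.pi) := by simp only [hΦ]; linarith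
  have h1 : Φ S < Φ T + 2 * Real.pi := by
    rw [← phase_add_one]
    exact mono (by linarith [hS.2, hT.1])
  have h2 : Φ T < Φ S + 2 * Real.pi := by
    rw [← phase_add_one]
    exact mono (by linarith [hT.2, hS.1])
  have hk0 : k = 0 := by
    have hp := Real.pi_pos
    have a1 : (k : ℝ) < 1 := by nlinarith
    have a2 : (-1 : ℝ) < k := by nlinarith
    have b1 : k < 1 := by exact_mod_cast a1
    have b2 : (-1 : ℤ) < k := by exact_mod_cast a2
    omega
  rw [hk0] at e
  have : S = T := mono.injective (by simpa using e)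
  rw [ha, hb, this]

lemma Theta_surjective (hρ : Tendsto (rad ρ 1) atTop atTop) : Function.Surjective (Theta ρ) := by
  intro z
  obtain ⟨R0, hR0⟩ := ((hρ.eventually_ge_atTop (‖z‖ ^ 2)).and (eventually_ge_atTop 0)).exists
  have hc : Continuous (rad ρ 1) :=
    continuous_iff_continuousAt.2 fun l => (hasDerivAt_rad ρ 1 l).continuousAt
  obtain ⟨R, hR, hRz⟩ := intermediate_value_Icc hR0.2 hc.continuousOn
    (show ‖z‖ ^ 2 ∈ Icc (rad ρ 1 0) (rad ρ 1 R0) from ⟨by rw [rad_zero]; positivity, hR0.1⟩)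
  set Φ := fun T : ℝ => 2 * Real.pi * T + ang ρ (rot T * (R : ℂ)) with hΦ
  have cΦ : Continuous Φ := (continuous_const.mul continuous_id).add
    ((contDiff_ang ρ).continuous.comp ((contDiff_rot.continuous).mul continuous_const))
  have h1 : Φ (0 + 1) = Φ 0 + 2 * Real.pi := phase_add_one ρ _ 0
  rw [zero_add] at h1
  set m : ℝ := Int.fract ((z.arg - Φ 0) / (2 * Real.pi)) with hm
  have hm0 : 0 ≤ m := Int.fract_nonneg _
  have hm1 : m ≤ 1 := (Int.fract_lt_one _).le
  have hp := Real.pi_pos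
  obtain ⟨T, hT, hTe⟩ := intermediate_value_Icc zero_le_one cΦ.continuousOn
    (show Φ 0 + 2 * Real.pi * m ∈ Icc (Φ 0) (Φ 1) from
      ⟨by nlinarith, by rw [h1]; nlinarith⟩)
  refine ⟨rot T * (R : ℂ), ?_⟩
  have hsq : R * Real.sqrt (nu ρ (R : ℂ)) = ‖z‖ := by
    rw [← Real.sqrt_sq (norm_nonneg z), ← hRz, rad_eq, mul_one, Real.sqrt_mul (sq_nonneg R),
      Real.sqrt_sq hR.1]
  have hp' : (Real.pi : ℂ) ≠ 0 := by exact_mod_cast Real.pi_ne_zero
  rw [Theta_rot, ← Complex.ofReal_mul, hsq]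
  conv_rhs => rw [← Complex.norm_mul_exp_arg_mul_I z]
  congr 1
  rw [Complex.exp_eq_exp_iff_exists_int]
  refine ⟨-⌊(z.arg - Φ 0) / (2 * Real.pi)⌋, ?_⟩
  simp only [hΦ] at hTe ⊢
  rw [hTe, hm, Int.fract]
  simp only [hΦ]
  push_cast
  field_simp
  ring

end

end Vale.Agent.P209
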