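import Mathlib
import Vale.Agent.P209.Twist

/-!
Area-preserving embedding of the plane into a half strip, almost respecting
the nested discs (Traynor's slit disc map), by a closed formula.
-/

open MeasureTheory Set Filter Complex
open scoped Topology ContDiff

namespace Vale.Agent.P209

noncomputable section

lemma contDiff_sig : ContDiff ℝ ∞ Real.sigmoid := contDiff_sigmoid.of_le (by simp)

/-- Soft positive part at scale `τ`. -/
def soft (τ p : ℝ) : ℝ := τ * Real.log (1 + Real.exp (p / τ))

lemma hasDerivAt_soft {τ : ℝ} (hτ : 0 < τ) (p : ℝ) :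
    HasDerivAt (soft τ) (Real.sigmoid (p / τ)) p := by
  have h0 : 0 < 1 + Real.exp (p / τ) := by positivity
  refine ((((((hasDerivAt_id' p).div_const τ).exp).const_add 1).log h0.ne').const_mul τ).congr_deriv ?_
  rw [Real.sigmoid_def, Real.exp_neg]
  have := Real.exp_pos (p / τ)
  field_simp
  ring

lemma soft_pos {τ : ℝ} (hτ : 0 < τ) (p : ℝ) : 0 < soft τ p :=
  mul_pos hτ (Real.log_pos (by have := Real.exp_pos (p / τ); linarith))

lemma soft_le {τ : ℝ} (hτ : 0 < τ) (p : ℝ) : soft τ p ≤ max p 0 + τ := by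
  have he := Real.exp_pos (p / τ)
  have h2 : Real.log 2 ≤ 1 := by
    have := Real.log_le_sub_one_of_pos (show (0:ℝ) < 2 by norm_num)
    linarith
  have hle : 1 + Real.exp (p / τ) ≤ 2 * Real.exp (max (p / τ) 0) := by
    have h1 : (1:ℝ) ≤ Real.exp (max (p / τ) 0) := Real.one_le_exp (le_max_right _ _)
    have h3 : Real.exp (p / τ) ≤ Real.exp (max (p / τ) 0) := Real.exp_le_exp.2 (le_max_left _ _)
    linarith
  have := Real.log_le_log (by positivity) hle
  rw [Real.log_mul (by norm_num) (Real.exp_ne_zero _), Real.log_exp] at this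
  calc soft τ p ≤ τ * (max (p / τ) 0 + 1) := mul_le_mul_of_nonneg_left (by linarith) hτ.le
    _ = max p 0 + τ := by
        rw [mul_add, mul_max_of_nonneg _ _ hτ.le, mul_zero, mul_one, mul_div_cancel₀ _ hτ.ne']

lemma le_soft {τ : ℝ} (hτ : 0 < τ) (p : ℝ) : p ≤ soft τ p := by
  have h : p / τ ≤ Real.log (1 + Real.exp (p / τ)) := by
    rw [Real.le_log_iff_exp_le (by positivity)]
    linarith
  have := mul_le_mul_of_nonneg_left h hτ.le
  rwa [mul_div_cancel₀ _ hτ.ne'] at this

/-- Derivative of `q ↦ sigmoid (q / δ)`. -/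
def bell (δ q : ℝ) : ℝ := Real.sigmoid (q / δ) * (1 - Real.sigmoid (q / δ)) / δ

lemma hasDerivAt_bell (δ q : ℝ) :
    HasDerivAt (fun q => Real.sigmoid (q / δ)) (bell δ q) q := by
  have h2 : HasDerivAt (fun q : ℝ => q / δ) (1 / δ) q := (hasDerivAt_id' q).div_const δ
  refine ((Real.hasDerivAt_sigmoid (q / δ)).comp q h2).congr_deriv ?_
  simp only [bell]
  ring

lemma bell_pos {δ : ℝ} (hδ : 0 < δ) (q : ℝ) : 0 < bell δ q :=
  div_pos (mul_pos (Real.sigmoid_pos _) (sub_pos.2 (Real.sigmoid_lt_one _))) hδ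

lemma sigmoid_neg_le {x : ℝ} (hx : 0 < x) : Real.sigmoid (-x) ≤ 1 / x := by
  rw [Real.sigmoid_def, neg_neg, inv_eq_one_div]
  apply one_div_le_one_div_of_le hx
  linarith [Real.add_one_le_exp x]

variable {τ δ : ℝ}

/-- The product density. -/
def dens (hτ : 0 < τ) (hδ : 0 < δ) : Dens where
  toFun w := Real.sigmoid (w.re / τ) * bell δ w.im
  pos _ := mul_pos (Real.sigmoid_pos _) (bell_pos hδ _)
  smooth := by
    have h1 : ContDiff ℝ ∞ fun w : ℂ => Real.sigmoid (w.re / τ) :=
      contDiff_sig.comp (Complex.reCLM.contDiff.div_const τ)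
    have h2 : ContDiff ℝ ∞ fun w : ℂ => Real.sigmoid (w.im / δ) :=
      contDiff_sig.comp (Complex.imCLM.contDiff.div_const δ)
    exact h1.mul ((h2.mul (contDiff_const.sub h2)).div_const δ)

/-- The map carrying the product density to Lebesgue measure on the half strip. -/
def slide (τ δ : ℝ) (w : ℂ) : ℂ :=
  (soft τ w.re : ℂ) + (Real.sigmoid (w.im / δ) : ℂ) * Complex.I

lemma contDiff_slide : ContDiff ℝ ∞ (slide τ δ) := by
  have h1 : ContDiff ℝ ∞ fun w : ℂ => soft τ w.re :=
    contDiff_const.mul ((contDiff_const.add (Complex.reCLM.contDiff.div_const τ).exp).log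
      fun w => by positivity)
  exact (contDiff_ofReal'.comp h1).add
    ((contDiff_ofReal'.comp (contDiff_sig.comp (Complex.imCLM.contDiff.div_const δ))).mul
      contDiff_const)

lemma slide_re (w : ℂ) : (slide τ δ w).re = soft τ w.re := by simp [slide]

lemma slide_im (w : ℂ) : (slide τ δ w).im = Real.sigmoid (w.im / δ) := by simp [slide]

lemma fderiv_slide (hτ : 0 < τ) (w u : ℂ) :
    fderiv ℝ (slide τ δ) w u = ((Real.sigmoid (w.re / τ) * u.re : ℝ) : ℂ) +
      ((bell δ w.im * u.im : ℝ) : ℂ) * Complex.I := by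
  have h1 := Complex.ofRealCLM.hasFDerivAt.comp w
    ((hasDerivAt_soft hτ w.re).comp_hasFDerivAt w (Complex.reCLM.hasFDerivAt (x := w)))
  have h2 := (Complex.ofRealCLM.hasFDerivAt.comp w
    ((hasDerivAt_bell δ w.im).comp_hasFDerivAt w (Complex.imCLM.hasFDerivAt (x := w)))).mul_const
      Complex.I
  have h : HasFDerivAt (slide τ δ) _ w := h1.add h2
  rw [h.fderiv]
  simp [mul_comm]

lemma det_slide (hτ : 0 < τ) (hδ : 0 < δ) (w u v : ℂ) :
    cform (fderiv ℝ (slide τ δ) w u) (fderiv ℝ (slide τ δ) w v) =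
      (dens hτ hδ).toFun w * cform u v := by
  rw [fderiv_slide hτ, fderiv_slide hτ]
  simp [cform, dens]
  ring

lemma slide_injective (hτ : 0 < τ) (hδ : 0 < δ) : Function.Injective (slide τ δ) := by
  intro a b h
  have mono : StrictMono (soft τ) :=
    strictMono_of_hasDerivAt_pos (fun p => hasDerivAt_soft hτ p) fun p => Real.sigmoid_pos _
  have h1 := congrArg Complex.re h
  have h2 := congrArg Complex.im h
  rw [slide_re, slide_re] at h1
  rw [slide_im, slide_im, Real.sigmoid_inj, div_left_inj' hδ.ne'] at h2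
  exact Complex.ext (mono.injective h1) h2

/-- Mass of discs is at least their radius, up to small errors. -/
lemma le_rad (hτ : 0 < τ) (hδ : 0 < δ) {b : ℝ} (hb : 0 < b) {R : ℝ} (hR : b ≤ R) :
    (1 - 2 * δ / b) * (soft τ (R - b) - soft τ 0) ≤ Real.pi * rad (dens hτ hδ) 1 R := by
  set ρ := dens hτ hδ with hρ
  set c : ℝ := Real.sigmoid (b / δ) - Real.sigmoid (-b / δ) with hc
  have hc1 : 1 - 2 * δ / b ≤ c := by
    have h1 := sigmoid_neg_le (div_pos hb hδ)
    rw [one_div_div] at h1
    have h2 := Real.sigmoid_neg (b / δ)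
    have h3 : 2 * δ / b = δ / b + δ / b := by ring
    simp only [hc, neg_div]
    linarith
  have key : ∀ l, b < l →
      Real.sigmoid ((l - b) / τ) * c ≤ 2 * Real.pi * l * mu ρ ((l : ℂ) * 1) := by
    intro l hl
    have hl0 : 0 < l := hb.trans hl
    set θ : ℝ := Real.arcsin (b / l) / (2 * Real.pi) with hθ
    have hbl : b / l < 1 := (div_lt_one hl0).2 hl
    have hp := Real.pi_pos
    have hθ0 : 0 ≤ θ := div_nonneg (Real.arcsin_nonneg.2 (by positivity)) (by positivity)
    have hθ1 : θ < 1 / 4 := by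
      rw [hθ, div_lt_iff₀ (by positivity)]
      linarith [Real.arcsin_lt_pi_div_two.2 hbl]
    set f : ℝ → ℝ := fun t => ρ.toFun (rot t * ((l : ℂ) * 1)) with hf
    have hfc : Continuous f := ρ.smooth.continuous.comp
      ((contDiff_rot.continuous).mul continuous_const)
    have hfp : Function.Periodic f 1 := fun t => by simp only [hf, rot_add_one]
    have hmu : mu ρ ((l : ℂ) * 1) = ∫ t in -θ..-θ + 1, f t := by
      rw [hfp.intervalIntegral_add_eq (-θ) 0, zero_add]; rfl
    have hsub : (∫ t in -θ..θ, f t) ≤ mu ρ ((l : ℂ) * 1) := by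
      rw [hmu]
      apply intervalIntegral.integral_mono_interval le_rfl (by linarith) (by linarith)
        (Eventually.of_forall fun t => (ρ.pos _).le) (hfc.intervalIntegrable _ _)
    set F : ℝ → ℝ := fun t => Real.sigmoid ((l * Real.sin (2 * Real.pi * t)) / δ) with hF
    have hFd : ∀ t, HasDerivAt F
        (bell δ (l * Real.sin (2 * Real.pi * t)) * (l * (Real.cos (2 * Real.pi * t) * (2 * Real.pi)))) t := by
      intro t
      have h1 : HasDerivAt (fun t => l * Real.sin (2 * Real.pi * t))
          (l * (Real.cos (2 * Real.pi * t) * (2 * Real.pi))) t := by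
        simpa using (((hasDerivAt_id' t).const_mul (2 * Real.pi)).sin).const_mul l
      exact (hasDerivAt_bell δ _).comp t h1
    have hg : Continuous fun t => bell δ (l * Real.sin (2 * Real.pi * t)) *
        (l * (Real.cos (2 * Real.pi * t) * (2 * Real.pi))) := by
      unfold bell
      have := continuous_sigmoid
      fun_prop
    have hint := intervalIntegral.integral_eq_sub_of_hasDerivAt (fun t _ => hFd t)
      (hg.intervalIntegrable (-θ) θ)
    have hFθ : F θ - F (-θ) = c := by
      have hs : Real.sin (2 * Real.pi * θ) = b / l := by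
        rw [hθ, mul_div_cancel₀ _ (by positivity), Real.sin_arcsin
          (by linarith [show 0 ≤ b / l by positivity]) hbl.le]
      simp only [hF, hc, mul_neg, Real.sin_neg, hs, mul_div_cancel₀ _ hl0.ne', neg_div]
    have hpt : ∀ t ∈ Icc (-θ) θ, Real.sigmoid ((l - b) / τ) * (bell δ (l * Real.sin (2 * Real.pi * t)) *
        (l * (Real.cos (2 * Real.pi * t) * (2 * Real.pi)))) ≤ 2 * Real.pi * l * f t := by
      intro t ht
      have hre : (rot t * ((l : ℂ) * 1)).re = l * Real.cos (2 * Real.pi * t) := by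
        rw [rot, Complex.mul_re, Complex.exp_ofReal_mul_I_re, Complex.exp_ofReal_mul_I_im]
        simp [mul_comm]
      have him : (rot t * ((l : ℂ) * 1)).im = l * Real.sin (2 * Real.pi * t) := by
        rw [rot, Complex.mul_im, Complex.exp_ofReal_mul_I_re, Complex.exp_ofReal_mul_I_im]
        simp [mul_comm]
      have hcos : Real.cos (2 * Real.pi * θ) ≤ Real.cos (2 * Real.pi * t) := by
        rw [← Real.cos_abs (2 * Real.pi * t)]
        apply Real.cos_le_cos_of_nonneg_of_le_pi (abs_nonneg _) (by nlinarith)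
        rw [abs_mul, abs_of_pos (by positivity : (0:ℝ) < 2 * Real.pi)]
        exact mul_le_mul_of_nonneg_left (abs_le.2 ht) (by positivity)
      have hcb : l - b ≤ l * Real.cos (2 * Real.pi * θ) := by
        rw [hθ, mul_div_cancel₀ _ (by positivity), Real.cos_arcsin]
        have hx0 : 0 ≤ b / l := by positivity
        have h1 : 1 - b / l ≤ Real.sqrt (1 - (b / l) ^ 2) := by
          apply Real.le_sqrt_of_sq_le
          nlinarith
        have := mul_le_mul_of_nonneg_left h1 hl0.le
        rw [mul_sub, mul_one, mul_div_cancel₀ _ hl0.ne'] at this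
        exact this
      have h1 : Real.sigmoid ((l - b) / τ) ≤ Real.sigmoid ((l * Real.cos (2 * Real.pi * t)) / τ) :=
        Real.sigmoid_le (div_le_div_of_nonneg_right
          (hcb.trans (mul_le_mul_of_nonneg_left hcos hl0.le)) hτ.le)
      have hbell := bell_pos hδ (l * Real.sin (2 * Real.pi * t))
      have hs0 := Real.sigmoid_pos ((l - b) / τ)
      simp only [hf, hρ, dens, hre, him]
      calc _ ≤ Real.sigmoid ((l - b) / τ) *
              (bell δ (l * Real.sin (2 * Real.pi * t)) * (l * (1 * (2 * Real.pi)))) := by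
            gcongr
            exact Real.cos_le_one _
        _ ≤ _ := by
            rw [show Real.sigmoid ((l - b) / τ) *
              (bell δ (l * Real.sin (2 * Real.pi * t)) * (l * (1 * (2 * Real.pi)))) =
              2 * Real.pi * l * (Real.sigmoid ((l - b) / τ) *
                bell δ (l * Real.sin (2 * Real.pi * t))) by ring]
            gcongr
    have := intervalIntegral.integral_mono_on (μ := volume) (by linarith : -θ ≤ θ)
      ((hg.const_mul (Real.sigmoid ((l - b) / τ))).intervalIntegrable _ _)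
      ((hfc.const_mul (2 * Real.pi * l)).intervalIntegrable _ _) hpt
    rw [intervalIntegral.integral_const_mul, intervalIntegral.integral_const_mul, hint, hFθ] at this
    exact this.trans (mul_le_mul_of_nonneg_left hsub (by positivity))
  have hd : ∀ l : ℝ, HasDerivAt (fun l => Real.pi * rad ρ 1 l - c * (soft τ (l - b) - soft τ 0))
      (Real.pi * (2 * l * mu ρ ((l : ℂ) * 1)) - c * Real.sigmoid ((l - b) / τ)) l := fun l =>
    ((hasDerivAt_rad ρ 1 l).const_mul Real.pi).fun_sub
      ((((hasDerivAt_soft hτ (l - b)).comp_sub_const l b).sub_const _).const_mul c)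
  have mono := monotoneOn_of_hasDerivWithinAt_nonneg (convex_Ici b)
    (fun l _ => (hd l).continuousAt.continuousWithinAt) (fun l _ => (hd l).hasDerivWithinAt)
    (fun l hl => by
      rw [interior_Ici] at hl
      have := key l hl
      linarith)
  have hR' := mono (mem_Ici.2 (le_refl b)) hR hR
  simp only [sub_self, mul_zero, sub_zero] at hR'
  have h0 : 0 ≤ rad ρ 1 b := by
    rw [← rad_zero ρ]
    exact (rad_strictMono ρ).monotoneOn (mem_Ici.2 le_rfl) (mem_Ici.2 hb.le) hb.le
  have hdiff : 0 ≤ soft τ (R - b) - soft τ 0 := by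
    have : Monotone (soft τ) :=
      (strictMono_of_hasDerivAt_pos (fun p => hasDerivAt_soft hτ p)
        fun p => Real.sigmoid_pos _).monotone
    linarith [this (show (0:ℝ) ≤ R - b by linarith)]
  have := mul_le_mul_of_nonneg_right hc1 hdiff
  nlinarith [Real.pi_pos]

lemma tendsto_rad (hτ : 0 < τ) (hδ : 0 < δ) :
    Tendsto (rad (dens hτ hδ) 1) atTop atTop := by
  apply tendsto_atTop.2
  intro C
  set b : ℝ := 4 * δ with hbdef
  have hb : 0 < b := by positivity
  filter_upwards [eventually_ge_atTop b,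
    eventually_ge_atTop (b + soft τ 0 + 2 * (Real.pi * |C|))] with R h1 h2
  have h := le_rad hτ hδ hb h1
  have e : 1 - 2 * δ / b = 1 / 2 := by rw [hbdef]; field_simp; norm_num
  rw [e] at h
  have := le_soft hτ (R - b)
  have : Real.pi * |C| ≤ Real.pi * rad (dens hτ hδ) 1 R := by linarith
  exact (le_abs_self C).trans (le_of_mul_le_mul_left this Real.pi_pos)

/-- The slit disc map. -/
theorem exists_disc_map {r ε : ℝ} (hr : 0 ≤ r) (hε : 0 < ε) :
    ∃ φ : ℂ → ℂ, ContDiff ℝ ∞ φ ∧ Function.Injective φ ∧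
      (∀ z u v, cform (fderiv ℝ φ z u) (fderiv ℝ φ z v) = cform u v) ∧
      (∀ z, 0 < (φ z).re ∧ 0 < (φ z).im ∧ (φ z).im < 1) ∧
      ∀ z, Real.pi * ‖z‖ ^ 2 ≤ r → (φ z).re ≤ Real.pi * ‖z‖ ^ 2 + ε := by
  set e : ℝ := min ε 1 with he
  have he0 : 0 < e := lt_min hε one_pos
  set τ : ℝ := e / 8 with hτdef
  have hτ : 0 < τ := by positivity
  set b : ℝ := e / 8 with hbdef
  have hb : 0 < b := by positivity
  set η : ℝ := e / (4 * (2 * r + 3)) with hη
  have hη0 : 0 < η := by positivity
  set δ : ℝ := b * η / 2 with hδdef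
  have hδ : 0 < δ := by positivity
  set ρ := dens hτ hδ with hρ
  have hsurj := Theta_surjective ρ (tendsto_rad hτ hδ)
  set inv := Function.invFun (Theta ρ) with hinv
  have hri : ∀ y, Theta ρ (inv y) = y := Function.rightInverse_invFun hsurj
  have hli : ∀ x, inv (Theta ρ x) = x := Function.leftInverse_invFun (Theta_injective ρ)
  have hdiff : Differentiable ℝ (Theta ρ) := (contDiff_Theta ρ).differentiable (by simp)
  have hinj' : ∀ w, Function.Injective (fderiv ℝ (Theta ρ) w : ℂ →ₗ[ℝ] ℂ) := by
    intro w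
    rw [injective_iff_map_eq_zero]
    intro u hu
    have hz : fderiv ℝ (Theta ρ) w u = 0 := hu
    have h1 := det_Theta ρ w u 1
    have h2 := det_Theta ρ w u Complex.I
    rw [hz] at h1 h2
    simp [cform, (ρ.pos w).ne'] at h1 h2
    exact Complex.ext h2 h1
  have hsmooth : ContDiff ℝ ∞ inv := by
    rw [contDiff_iff_contDiffAt]
    intro y
    set L : ℂ ≃L[ℝ] ℂ := (LinearEquiv.ofBijective (fderiv ℝ (Theta ρ) (inv y) : ℂ →ₗ[ℝ] ℂ)
      ⟨hinj' _, LinearMap.surjective_of_injective (hinj' _)⟩).toContinuousLinearEquiv with hL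
    have hf' : HasFDerivAt (Theta ρ) (L : ℂ →L[ℝ] ℂ) (inv y) := by
      have e : (L : ℂ →L[ℝ] ℂ) = fderiv ℝ (Theta ρ) (inv y) :=
        ContinuousLinearMap.ext fun x => rfl
      rw [e]
      exact (hdiff _).hasFDerivAt
    have hcd := (contDiff_Theta ρ).contDiffAt (x := inv y)
    have hloc := hcd.to_localInverse hf' (by simp)
    rw [hri] at hloc
    refine hloc.congr_of_eventuallyEq ?_
    have hr' := (hcd.hasStrictFDerivAt' hf' (by simp)).eventually_right_inverse
    rw [hri] at hr'
    filter_upwards [hr'] with x hx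
    exact Theta_injective ρ ((hri x).trans hx.symm)
  refine ⟨slide τ δ ∘ inv, contDiff_slide.comp hsmooth,
    (slide_injective hτ hδ).comp (fun a b h => by rw [← hri a, ← hri b, h]), ?_, ?_, ?_⟩
  · intro z u v
    have hi := (hsmooth.differentiable (by simp)).differentiableAt (x := z)
    have hs := (contDiff_slide (τ := τ) (δ := δ)).differentiable (by simp) (inv z)
    rw [fderiv_comp z hs hi]
    simp only [ContinuousLinearMap.comp_apply]
    rw [det_slide hτ hδ, ← det_Theta ρ (inv z)]
    have hid : (fderiv ℝ (Theta ρ) (inv z)).comp (fderiv ℝ inv z) = ContinuousLinearMap.id ℝ ℂ := by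
      rw [← fderiv_comp z (hdiff _) hi, show Theta ρ ∘ inv = id from funext hri, fderiv_id]
    have e1 := DFunLike.congr_fun hid u
    have e2 := DFunLike.congr_fun hid v
    simp only [ContinuousLinearMap.comp_apply, ContinuousLinearMap.id_apply] at e1 e2
    rw [e1, e2]
  · intro z
    simp only [Function.comp_apply, slide_re, slide_im]
    exact ⟨soft_pos hτ _, Real.sigmoid_pos _, Real.sigmoid_lt_one _⟩
  · intro z hz
    set w := inv z with hw
    have hA : Real.pi * ‖z‖ ^ 2 = Real.pi * rad ρ 1 ‖w‖ := by rw [← norm_Theta, hw, hri]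
    simp only [Function.comp_apply, slide_re, ← hw]
    have h1 : soft τ w.re ≤ ‖w‖ + τ := (soft_le hτ _).trans (by
      have := Complex.re_le_norm w
      have := norm_nonneg w
      linarith [max_le (Complex.re_le_norm w) (norm_nonneg w)])
    have heε : e ≤ ε := min_le_left _ _
    have he1 : e ≤ 1 := min_le_right _ _
    rcases le_or_gt ‖w‖ b with hle | hgt
    · have : 0 ≤ Real.pi * ‖z‖ ^ 2 := by positivity
      linarith
    · have h2 := le_rad hτ hδ hb hgt.le
      rw [← hρ, ← hA] at h2
      have e1 : 2 * δ / b = η := by rw [hδdef]; field_simp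
      rw [e1] at h2
      have h3 := le_soft hτ (‖w‖ - b)
      have h4 := soft_le hτ 0
      rw [max_self, zero_add] at h4
      have hη4 : η * (4 * (2 * r + 3)) = e := by
        rw [hη, div_mul_cancel₀]; positivity
      have hη1 : η ≤ 1 / 2 := by nlinarith
      have h5 : (1 - η) * (‖w‖ - b - τ) ≤ Real.pi * ‖z‖ ^ 2 :=
        (mul_le_mul_of_nonneg_left (by linarith) (by linarith)).trans h2
      have hR : ‖w‖ - b - τ ≤ 2 * r + 3 := by
        by_contra hcon
        nlinarith
      have : η * (‖w‖ - b - τ) ≤ e / 4 := by nlinarith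
      nlinarith

end

end Vale.Agent.P209
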