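import Mathlib
import Vale.Agent.P209.Basic
import Vale.Agent.P209.Disc

/-!
Disjoint integral-affine images of simplices give symplectic ball packings.
-/

open Set Finset
open scoped ContDiff BigOperators Topology

namespace Vale.Agent.P209

variable {n : ℕ}

noncomputable section

/-- An affine map `u ↦ u ∘ π + v` in cumulative coordinates. -/
structure Cell (n : ℕ) where
  perm : Equiv.Perm (Fin n)
  shift : Fin n → ℝ

/-- The action of a cell. -/
def Cell.act (c : Cell n) (u : Fin n → ℝ) : Fin n → ℝ := fun j => u (c.perm j) + c.shift j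

/-- The simplex in cumulative coordinates. -/
def simp0 (n : ℕ) (s : ℝ) : Set (Fin n → ℝ) :=
  {u | StrictMono u ∧ ∀ j, 0 < u j ∧ u j < s}

/-- Partial sums. -/
def cumL : (Fin n → ℝ) →ₗ[ℝ] (Fin n → ℝ) where
  toFun a j := ∑ l with l ≤ j, a l
  map_add' a b := by ext j; simp [Finset.sum_add_distrib]
  map_smul' c a := by ext j; simp [Finset.mul_sum]

/-- Tail sums. -/
def tailL : (Fin n → ℝ) →ₗ[ℝ] (Fin n → ℝ) where
  toFun a j := ∑ l with j ≤ l, a l
  map_add' a b := by ext j; simp [Finset.sum_add_distrib]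
  map_smul' c a := by ext j; simp [Finset.mul_sum]

/-- The previous entry, or zero. -/
def prevL : (Fin n → ℝ) →ₗ[ℝ] (Fin n → ℝ) where
  toFun a j := if h : j.1 = 0 then 0 else a ⟨j.1 - 1, by omega⟩
  map_add' a b := by ext j; by_cases h : j.1 = 0 <;> simp [h]
  map_smul' c a := by ext j; by_cases h : j.1 = 0 <;> simp [h]

/-- The next entry, or zero. -/
def nextL : (Fin n → ℝ) →ₗ[ℝ] (Fin n → ℝ) where
  toFun a j := if h : j.1 + 1 < n then a ⟨j.1 + 1, h⟩ else 0
  map_add' a b := by ext j; by_cases h : j.1 + 1 < n <;> simp [h]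
  map_smul' c a := by ext j; by_cases h : j.1 + 1 < n <;> simp [h]

lemma cumL_rec (a : Fin n → ℝ) (j : Fin n) : cumL a j = a j + prevL (cumL a) j := by
  simp only [cumL, prevL, LinearMap.coe_mk, AddHom.coe_mk]
  split_ifs with h
  · rw [add_zero]
    apply Finset.sum_eq_single_of_mem j (by simp)
    intro l hl hne
    simp only [mem_filter, Finset.mem_univ, true_and, Fin.le_def] at hl
    exact absurd (Fin.ext (by omega)) hne
  · rw [show (univ.filter fun l : Fin n => l ≤ j) =
      insert j (univ.filter fun l : Fin n => l ≤ (⟨j.1 - 1, by omega⟩ : Fin n)) by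
      ext l; simp only [mem_filter, Finset.mem_univ, true_and, Finset.mem_insert, Fin.ext_iff, Fin.le_def]; omega]
    rw [Finset.sum_insert]
    simp only [mem_filter, Finset.mem_univ, true_and, Fin.le_def]
    omega

lemma tailL_rec (a : Fin n → ℝ) (j : Fin n) : tailL a j = a j + nextL (tailL a) j := by
  simp only [tailL, nextL, LinearMap.coe_mk, AddHom.coe_mk]
  split_ifs with h
  · rw [show (univ.filter fun l : Fin n => j ≤ l) =
      insert j (univ.filter fun l : Fin n => (⟨j.1 + 1, h⟩ : Fin n) ≤ l) by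
      ext l; simp only [mem_filter, Finset.mem_univ, true_and, Finset.mem_insert, Fin.ext_iff, Fin.le_def]; omega]
    rw [Finset.sum_insert]
    simp only [mem_filter, Finset.mem_univ, true_and, Fin.le_def]
    omega
  · rw [add_zero]
    apply Finset.sum_eq_single_of_mem j (by simp)
    intro l hl hne
    simp only [mem_filter, Finset.mem_univ, true_and, Fin.le_def] at hl
    exact absurd (Fin.ext (by omega)) hne

/-- First differences. -/
def diffL : (Fin n → ℝ) →ₗ[ℝ] (Fin n → ℝ) := LinearMap.id - prevL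

/-- Backward differences. -/
def rdiffL : (Fin n → ℝ) →ₗ[ℝ] (Fin n → ℝ) := LinearMap.id - nextL

lemma diff_cum (a : Fin n → ℝ) : diffL (cumL a) = a := by
  ext j
  simp [diffL, cumL_rec a j]

lemma rdiff_tail (a : Fin n → ℝ) : rdiffL (tailL a) = a := by
  ext j
  simp [rdiffL, tailL_rec a j]

lemma diffL_surj : Function.Surjective (diffL (n := n)) := fun a => ⟨cumL a, diff_cum a⟩

lemma cum_diff (a : Fin n → ℝ) : cumL (diffL a) = a :=
  (LinearMap.injective_iff_surjective.2 diffL_surj) (diff_cum _)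

lemma rdiffL_surj : Function.Surjective (rdiffL (n := n)) := fun a => ⟨tailL a, rdiff_tail a⟩

lemma tail_rdiff (a : Fin n → ℝ) : tailL (rdiffL a) = a :=
  (LinearMap.injective_iff_surjective.2 rdiffL_surj) (rdiff_tail _)

lemma pairing (a c : Fin n → ℝ) : ∑ j, cumL a j * c j = ∑ l, a l * tailL c l := by
  simp only [cumL, tailL, LinearMap.coe_mk, AddHom.coe_mk, Finset.sum_mul, Finset.mul_sum]
  simp only [Finset.sum_filter]
  rw [Finset.sum_comm]

/-- Apply `A` to real parts and `B` to imaginary parts. -/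
def pairL (A B : (Fin n → ℝ) →ₗ[ℝ] (Fin n → ℝ)) : (Fin n → ℂ) →L[ℝ] (Fin n → ℂ) :=
  LinearMap.toContinuousLinearMap
    { toFun := fun z j => (⟨A (fun l => (z l).re) j, B (fun l => (z l).im) j⟩ : ℂ)
      map_add' := fun a b => by
        ext j
        apply Complex.ext
        · simp only [Pi.add_apply, Complex.add_re]
          exact congrFun (A.map_add (fun l => (a l).re) fun l => (b l).re) j
        · simp only [Pi.add_apply, Complex.add_im]
          exact congrFun (B.map_add (fun l => (a l).im) fun l => (b l).im) j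
      map_smul' := fun c a => by
        ext j
        apply Complex.ext
        · simp only [Pi.smul_apply, Complex.smul_re, RingHom.id_apply]
          exact congrFun (A.map_smul c fun l => (a l).re) j
        · simp only [Pi.smul_apply, Complex.smul_im, RingHom.id_apply]
          exact congrFun (B.map_smul c fun l => (a l).im) j }

lemma pairL_re (A B : (Fin n → ℝ) →ₗ[ℝ] (Fin n → ℝ)) (z : Fin n → ℂ) (j : Fin n) :
    (pairL A B z j).re = A (fun l => (z l).re) j := rfl

lemma pairL_im (A B : (Fin n → ℝ) →ₗ[ℝ] (Fin n → ℝ)) (z : Fin n → ℂ) (j : Fin n) :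
    (pairL A B z j).im = B (fun l => (z l).im) j := rfl

lemma pairL_omega {A B : (Fin n → ℝ) →ₗ[ℝ] (Fin n → ℝ)}
    (h : ∀ a b, ∑ j, A a j * B b j = ∑ j, a j * b j) (u v : Fin n → ℂ) :
    omega0 (pairL A B u) (pairL A B v) = omega0 u v := by
  have e1 := h (fun l => (u l).re) (fun l => (v l).im)
  have e2 := h (fun l => (v l).re) (fun l => (u l).im)
  simp only [omega0, Finset.sum_sub_distrib, pairL_re, pairL_im]
  simp only [mul_comm (B _ _), mul_comm ((u _).im)]
  linarith

/-- Permutation of entries. -/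
def permL (π : Equiv.Perm (Fin n)) : (Fin n → ℝ) →ₗ[ℝ] (Fin n → ℝ) := LinearMap.funLeft ℝ ℝ π

/-- The linear part of the moment-angle map of a cell. -/
def cellLin (c : Cell n) : (Fin n → ℂ) →L[ℝ] (Fin n → ℂ) :=
  pairL (diffL ∘ₗ permL c.perm ∘ₗ cumL) (tailL ∘ₗ permL c.perm ∘ₗ rdiffL)

lemma cellLin_omega (c : Cell n) (u v : Fin n → ℂ) :
    omega0 (cellLin c u) (cellLin c v) = omega0 u v := by
  apply pairL_omega
  intro a b
  simp only [LinearMap.comp_apply]
  rw [← pairing, cum_diff]
  simp only [permL, LinearMap.funLeft_apply]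
  rw [Equiv.sum_comp c.perm (fun j => cumL a j * rdiffL b j), pairing, tail_rdiff]

/-- The translation part of the moment-angle map of a cell. -/
def cellConst (c : Cell n) : Fin n → ℂ := fun j => (diffL c.shift j : ℂ)

/-- The affine moment-angle map of a cell. -/
def cellAff (c : Cell n) (z : Fin n → ℂ) : Fin n → ℂ := cellLin c z + cellConst c

lemma cum_cellAff_re (c : Cell n) (z : Fin n → ℂ) :
    cumL (fun j => (cellAff c z j).re) = c.act (cumL fun j => (z j).re) := by
  have e : (fun j => (cellAff c z j).re) =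
      diffL (permL c.perm (cumL fun j => (z j).re) + c.shift) := by
    ext j
    simp [cellAff, cellConst, cellLin, pairL_re]
  rw [e, cum_diff]
  rfl

/-- From moment-angle coordinates to the plane. -/
def polar1 (W : ℂ) : ℂ := (Real.sqrt (W.re / Real.pi) : ℂ) * rot W.im

lemma contDiffAt_polar1 {W : ℂ} (h : 0 < W.re) : ContDiffAt ℝ ∞ polar1 W := by
  have h1 : ContDiffAt ℝ ∞ (fun W : ℂ => Real.sqrt (W.re / Real.pi)) W :=
    (Complex.reCLM.contDiff.contDiffAt.div_const Real.pi).sqrt (div_pos h Real.pi_pos).ne'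
  exact (contDiff_ofReal'.contDiffAt.comp W h1).mul
    (contDiff_rot.comp Complex.imCLM.contDiff).contDiffAt

lemma fderiv_polar1 {W : ℂ} (h : 0 < W.re) (u : ℂ) :
    fderiv ℝ polar1 W u = rot W.im * (((u.re / (2 * Real.pi * Real.sqrt (W.re / Real.pi)) : ℝ) : ℂ)
      + ((2 * Real.pi * Real.sqrt (W.re / Real.pi) * u.im : ℝ) : ℂ) * Complex.I) := by
  have h1 := Complex.ofRealCLM.hasFDerivAt.comp W
    (((Complex.reCLM.hasFDerivAt (x := W)).mul_const (1 / Real.pi)).sqrt
      (mul_pos h (by positivity)).ne')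
  have h2 := (hasDerivAt_rot_mul 1 W.im).hasFDerivAt.comp (f := fun z : ℂ => z.im) W
    (Complex.imCLM.hasFDerivAt (x := W))
  have h3 := h1.mul h2
  have h4 : HasFDerivAt polar1 _ W := h3.congr_of_eventuallyEq
    (Filter.Eventually.of_forall fun x => by simp [polar1, div_eq_mul_inv])
  rw [h4.fderiv]
  simp [div_eq_mul_inv]
  ring

lemma det_polar1 {W : ℂ} (h : 0 < W.re) (u v : ℂ) :
    cform (fderiv ℝ polar1 W u) (fderiv ℝ polar1 W v) = cform u v := by
  have hs : 0 < Real.sqrt (W.re / Real.pi) := Real.sqrt_pos.2 (div_pos h Real.pi_pos)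
  have hn : Complex.normSq (rot W.im) = 1 := by
    rw [Complex.normSq_eq_norm_sq, norm_rot, one_pow]
  have hmul : ∀ a b c : ℂ, cform (c * a) (c * b) = Complex.normSq c * cform a b := by
    intro a b c
    simp only [cform, Complex.mul_re, Complex.mul_im, Complex.normSq_apply]
    ring
  rw [fderiv_polar1 h, fderiv_polar1 h, hmul, hn, one_mul]
  simp only [cform, Complex.mul_re, Complex.mul_im, Complex.add_re, Complex.add_im,
    Complex.ofReal_re, Complex.ofReal_im, Complex.I_re, Complex.I_im]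
  field_simp
  ring

lemma norm_polar1 {W : ℂ} (h : 0 ≤ W.re) : Real.pi * ‖polar1 W‖ ^ 2 = W.re := by
  rw [polar1, norm_mul, norm_rot, mul_one, Complex.norm_real, Real.norm_eq_abs, sq_abs,
    Real.sq_sqrt (div_nonneg h Real.pi_pos.le), mul_div_cancel₀ _ Real.pi_ne_zero]

lemma polar1_eq {W W' : ℂ} (h : 0 < W.re) (h' : 0 < W'.re) (he : polar1 W = polar1 W') :
    W.re = W'.re ∧ ∃ m : ℤ, W.im = W'.im + m := by
  have hr : W.re = W'.re := by rw [← norm_polar1 h.le, ← norm_polar1 h'.le, he]
  refine ⟨hr, ?_⟩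
  have hs : ((Real.sqrt (W.re / Real.pi) : ℝ) : ℂ) ≠ 0 := by
    exact_mod_cast (Real.sqrt_pos.2 (div_pos h Real.pi_pos)).ne'
  rw [polar1, polar1, ← hr] at he
  obtain ⟨m, hm⟩ := Complex.exp_eq_exp_iff_exists_int.1 (mul_left_cancel₀ hs he)
  have := congrArg Complex.im hm
  simp at this
  exact ⟨m, mul_left_cancel₀ (show 2 * Real.pi ≠ 0 by positivity) (by linarith)⟩

/-- `b` has integral entries. -/
def IsInt (b : Fin n → ℝ) : Prop := ∀ j, ∃ m : ℤ, b j = m

lemma IsInt.rdiff {b : Fin n → ℝ} (h : IsInt b) : IsInt (rdiffL b) := by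
  intro j
  simp only [rdiffL, LinearMap.sub_apply, LinearMap.id_coe, id_eq, Pi.sub_apply, nextL,
    LinearMap.coe_mk, AddHom.coe_mk]
  obtain ⟨a, ha⟩ := h j
  split_ifs with hj
  · obtain ⟨b', hb⟩ := h ⟨j.1 + 1, hj⟩
    exact ⟨a - b', by rw [ha, hb]; push_cast; ring⟩
  · exact ⟨a, by rw [ha, sub_zero]⟩

lemma IsInt.tail {b : Fin n → ℝ} (h : IsInt b) : IsInt (tailL b) := by
  choose m hm using h
  intro j
  exact ⟨∑ l with j ≤ l, m l, by simp [tailL, hm]⟩

lemma strictMono_cum {x : Fin n → ℝ} (hx : ∀ j, 0 < x j) : StrictMono (cumL x) := by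
  intro i j hij
  simp only [cumL, LinearMap.coe_mk, AddHom.coe_mk]
  apply Finset.sum_lt_sum_of_subset (i := j)
  · intro l; simp only [mem_filter, Finset.mem_univ, true_and]; exact fun h => h.trans hij.le
  · simp
  · simp [hij]
  · exact hx j
  · exact fun l _ _ => (hx l).le

lemma cum_mem_simp0 {x : Fin n → ℝ} {s : ℝ} (hx : ∀ j, 0 < x j) (hs : ∑ j, x j < s) :
    cumL x ∈ simp0 n s := by
  refine ⟨strictMono_cum hx, fun j => ⟨?_, ?_⟩⟩
  · simp only [cumL, LinearMap.coe_mk, AddHom.coe_mk]
    exact Finset.sum_pos (fun l _ => hx l) ⟨j, by simp⟩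
  · simp only [cumL, LinearMap.coe_mk, AddHom.coe_mk]
    exact lt_of_le_of_lt (Finset.sum_le_univ_sum_of_nonneg fun l => (hx l).le) hs

lemma diff_pos_of_mem {y : Fin n → ℝ} {R : ℝ} (hy : y ∈ simp0 n R) (j : Fin n) :
    0 < diffL y j := by
  simp only [diffL, LinearMap.sub_apply, LinearMap.id_coe, id_eq, Pi.sub_apply, prevL,
    LinearMap.coe_mk, AddHom.coe_mk]
  split_ifs with h
  · simpa using (hy.2 j).1
  · rw [sub_pos]; exact hy.1 (show (⟨j.1 - 1, _⟩ : Fin n).1 < j.1 by simp only; omega)

lemma sum_lt_of_cum_mem {x : Fin n → ℝ} {R : ℝ} (hR : 0 < R) (h : cumL x ∈ simp0 n R) :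
    ∑ j, x j < R := by
  rcases Nat.eq_zero_or_pos n with rfl | hn
  · simpa using hR
  · have := (h.2 ⟨n - 1, by omega⟩).2
    convert this using 1
    simp only [cumL, LinearMap.coe_mk, AddHom.coe_mk]
    rw [Finset.filter_true_of_mem]
    intro l _
    show l.1 ≤ n - 1
    omega

/-- Cells with disjoint images give a packing. -/
theorem packs_of_cells {k : ℕ} {R : ℝ} (hR : 0 < R) {r : Fin k → ℝ} (hr : ∀ i, 0 < r i)
    (c : Fin k → Cell n) (s : Fin k → ℝ) (hrs : ∀ i, r i < s i)
    (hsub : ∀ i, (c i).act '' simp0 n (s i) ⊆ simp0 n R)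
    (hdis : Pairwise fun i j => Disjoint ((c i).act '' simp0 n (s i)) ((c j).act '' simp0 n (s j))) :
    Packs n R r := by
  set ε : Fin k → ℝ := fun i => (s i - r i) / (2 * (n + 1)) with hε
  have hεp : ∀ i, 0 < ε i := fun i => div_pos (sub_pos.2 (hrs i)) (by positivity)
  choose φ hφ using fun i => exists_disc_map (r := r i + ε i) (by linarith [hr i, hεp i]) (hεp i)
  set U : Fin k → Set (Fin n → ℂ) := fun i => capBallOpen n (r i + ε i) with hU
  set lift : Fin k → (Fin n → ℂ) → (Fin n → ℂ) := fun i z j => φ i (z j) with hlift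
  set g : Fin k → (Fin n → ℂ) → (Fin n → ℂ) := fun i z => cellAff (c i) (lift i z) with hg
  have hUopen : ∀ i, IsOpen (U i) := fun i =>
    isOpen_lt (continuous_const.mul (continuous_finsetSum _ fun j _ =>
      ((continuous_apply j).norm.pow 2))) continuous_const
  have hball : ∀ i, capBall n (r i) ⊆ U i := fun i z hz => by
    simp only [hU, capBallOpen, capBall, Set.mem_ofPred_eq] at hz ⊢
    linarith [hεp i]
  have hu : ∀ i, ∀ z ∈ U i, cumL (fun j => (lift i z j).re) ∈ simp0 n (s i) := by
    intro i z hz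
    apply cum_mem_simp0 (fun j => ((hφ i).2.2.2.1 _).1)
    simp only [hU, capBallOpen, Set.mem_ofPred_eq] at hz
    have hj : ∀ j, Real.pi * ‖z j‖ ^ 2 ≤ r i + ε i := fun j => by
      refine le_trans ?_ hz.le
      exact mul_le_mul_of_nonneg_left (Finset.single_le_sum (f := fun j => ‖z j‖ ^ 2)
        (fun _ _ => by positivity) (Finset.mem_univ j)) Real.pi_pos.le
    calc ∑ j, (lift i z j).re ≤ ∑ j, (Real.pi * ‖z j‖ ^ 2 + ε i) :=
          Finset.sum_le_sum fun j _ => (hφ i).2.2.2.2 _ (hj j)
      _ = Real.pi * ∑ j, ‖z j‖ ^ 2 + n * ε i := by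
          rw [Finset.sum_add_distrib, Finset.mul_sum]; simp
      _ < r i + ε i + n * ε i := by linarith
      _ < s i := by
          have e : ε i * (2 * (n + 1)) = s i - r i := by
            simp only [hε]; field_simp
          nlinarith [hεp i]
  have hY : ∀ i, ∀ z ∈ U i, (c i).act (cumL fun j => (lift i z j).re) ∈ simp0 n R :=
    fun i z hz => hsub i ⟨_, hu i z hz, rfl⟩
  have hpos : ∀ i, ∀ z ∈ U i, ∀ j, 0 < (g i z j).re := by
    intro i z hz j
    have h := diff_pos_of_mem (hY i z hz) j
    rwa [← cum_cellAff_re, diff_cum] at h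
  refine ⟨fun i z j => polar1 (g i z j), fun i => ⟨⟨U i, hUopen i, hball i, ?_, ?_, ?_⟩, ?_⟩, ?_⟩
  · intro z hz
    apply ContDiffAt.contDiffWithinAt
    apply contDiffAt_pi.2
    intro j
    refine (contDiffAt_polar1 (hpos i z hz j)).comp (f := fun z => g i z j) z ?_
    have h1 : ContDiff ℝ ∞ (lift i) := contDiff_pi.2 fun j => (hφ i).1.comp (contDiff_apply ℝ ℂ j)
    exact (contDiff_pi.1 (((cellLin (c i)).contDiff.comp h1).add contDiff_const) j).contDiffAt
  · intro z hz z' hz' he
    have he' : ∀ j, polar1 (g i z j) = polar1 (g i z' j) := fun j => congrFun he j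
    have h := fun j => polar1_eq (hpos i z hz j) (hpos i z' hz' j) (he' j)
    have hre : (fun j => (lift i z j).re) = fun j => (lift i z' j).re := by
      have e : (c i).act (cumL fun j => (lift i z j).re) =
          (c i).act (cumL fun j => (lift i z' j).re) := by
        rw [← cum_cellAff_re, ← cum_cellAff_re]
        exact congrArg cumL (funext fun j => (h j).1)
      have e2 : cumL (fun j => (lift i z j).re) = cumL (fun j => (lift i z' j).re) := by
        funext l
        simpa [Cell.act] using congrFun e ((c i).perm.symm l)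
      simpa [diff_cum] using congrArg diffL e2
    set d : Fin n → ℝ := (fun j => (lift i z j).im) - fun j => (lift i z' j).im with hd
    have hint : IsInt (tailL (permL (c i).perm (rdiffL d))) := by
      intro j
      obtain ⟨m, hm⟩ := (h j).2
      refine ⟨m, ?_⟩
      simp only [hg, cellAff, cellLin, cellConst, Pi.add_apply, Complex.add_im, pairL_im,
        Complex.ofReal_im, add_zero, LinearMap.comp_apply] at hm
      rw [hd, map_sub, map_sub, map_sub, Pi.sub_apply, hm]
      ring
    have hint2 : IsInt d := by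
      have h1 := hint.rdiff
      rw [rdiff_tail] at h1
      have h2 : IsInt (rdiffL d) := fun l => by
        simpa [permL, LinearMap.funLeft_apply] using h1 ((c i).perm.symm l)
      simpa [tail_rdiff] using h2.tail
    funext j
    refine (hφ i).2.1 (Complex.ext (congrFun hre j) ?_)
    obtain ⟨m, hm⟩ := hint2 j
    simp only [hd, Pi.sub_apply] at hm
    have ha := (hφ i).2.2.2.1 (z j)
    have hb := (hφ i).2.2.2.1 (z' j)
    simp only [hlift] at hm ⊢
    have h1 : (m : ℝ) < 1 := by linarith [ha.2.2, hb.2.1]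
    have h2 : (-1 : ℝ) < m := by linarith [hb.2.2, ha.2.1]
    have h3 : m < 1 := by exact_mod_cast h1
    have h4 : (-1 : ℤ) < m := by exact_mod_cast h2
    have h5 : m = 0 := by omega
    rw [h5, Int.cast_zero] at hm
    linarith
  · intro z hz u v
    have hl : ∀ j, HasFDerivAt (fun z : Fin n → ℂ => φ i (z j))
        ((fderiv ℝ (φ i) (z j)).comp (ContinuousLinearMap.proj j)) z := fun j =>
      (((hφ i).1.differentiable (by simp)).differentiableAt.hasFDerivAt).comp z (hasFDerivAt_apply j z)
    have hlift' : HasFDerivAt (lift i) (ContinuousLinearMap.pi fun j =>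
        (fderiv ℝ (φ i) (z j)).comp (ContinuousLinearMap.proj j)) z := hasFDerivAt_pi.2 hl
    have hg' : HasFDerivAt (g i) ((cellLin (c i)).comp (ContinuousLinearMap.pi fun j =>
        (fderiv ℝ (φ i) (z j)).comp (ContinuousLinearMap.proj j))) z :=
      (((cellLin (c i)).hasFDerivAt).comp z hlift').add_const (cellConst (c i))
    have hf : ∀ j, HasFDerivAt (fun z => polar1 (g i z j))
        ((fderiv ℝ polar1 (g i z j)).comp ((ContinuousLinearMap.proj j).comp
          ((cellLin (c i)).comp (ContinuousLinearMap.pi fun j =>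
            (fderiv ℝ (φ i) (z j)).comp (ContinuousLinearMap.proj j))))) z := fun j =>
      (((contDiffAt_polar1 (hpos i z hz j)).differentiableAt (by simp)).hasFDerivAt).comp
        (f := fun z => g i z j) z (hasFDerivAt_pi'.1 hg' j)
    rw [(hasFDerivAt_pi.2 hf).fderiv]
    have key : ∀ j a b, cform (fderiv ℝ polar1 (g i z j) a) (fderiv ℝ polar1 (g i z j) b) =
        cform a b := fun j => det_polar1 (hpos i z hz j)
    calc _ = ∑ j, cform ((cellLin (c i)) (fun l => fderiv ℝ (φ i) (z l) (u l)) j)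
          ((cellLin (c i)) (fun l => fderiv ℝ (φ i) (z l) (v l)) j) :=
          Finset.sum_congr rfl fun j _ => key j _ _
      _ = omega0 (fun l => fderiv ℝ (φ i) (z l) (u l)) (fun l => fderiv ℝ (φ i) (z l) (v l)) :=
          cellLin_omega _ _ _
      _ = omega0 u v := Finset.sum_congr rfl fun l _ => (hφ i).2.2.1 _ _ _
  · rintro _ ⟨z, hz, rfl⟩
    have hz' := hball i hz
    show Real.pi * ∑ j, ‖polar1 (g i z j)‖ ^ 2 < R
    rw [Finset.mul_sum, Finset.sum_congr rfl fun j _ => norm_polar1 (hpos i z hz' j).le]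
    apply sum_lt_of_cum_mem hR
    simp only [hg]
    rw [cum_cellAff_re]
    exact hY i z hz'
  · intro i i' hii
    rw [Set.disjoint_left]
    rintro _ ⟨z, hz, rfl⟩ ⟨z', hz', he⟩
    have h : ∀ j, (g i' z' j).re = (g i z j).re := fun j =>
      (polar1_eq (hpos i' z' (hball i' hz') j) (hpos i z (hball i hz) j) (congrFun he j)).1
    have e := congrArg cumL (funext h)
    simp only [hg] at e
    rw [cum_cellAff_re, cum_cellAff_re] at e
    exact Set.disjoint_left.1 (hdis hii) ⟨_, hu i z (hball i hz), rfl⟩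
      ⟨_, hu i' z' (hball i' hz'), e⟩

end

end Vale.Agent.P209
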