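import Mathlib
import Vale.Agent.P209.Embed

/-!
Cells: unimodular simplices filling layers of a big simplex, and their subdivision.
-/

open Set Finset
open scoped BigOperators

namespace Vale.Agent.P209

variable {n : ℕ}

noncomputable section

/-- A family of simplices of sizes `sz` fits, by cells, disjointly into `S`. -/
def Fits {ι : Type*} (S : Set (Fin n → ℝ)) (sz : ι → ℝ) : Prop :=
  ∃ c : ι → Cell n, (∀ i, (c i).act '' simp0 n (sz i) ⊆ S) ∧
    Pairwise fun i j => Disjoint ((c i).act '' simp0 n (sz i)) ((c j).act '' simp0 n (sz j))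

lemma Fits.mono {ι : Type*} {S S' : Set (Fin n → ℝ)} {sz : ι → ℝ} (h : Fits S sz) (hS : S ⊆ S') :
    Fits S' sz :=
  let ⟨c, h1, h2⟩ := h
  ⟨c, fun i => (h1 i).trans hS, h2⟩

lemma Fits.reindex {ι κ : Type*} {S : Set (Fin n → ℝ)} {sz : ι → ℝ} (h : Fits S sz) (e : κ → ι)
    (he : Function.Injective e) : Fits S (sz ∘ e) :=
  let ⟨c, h1, h2⟩ := h
  ⟨c ∘ e, fun i => h1 (e i), fun _ _ hij => h2 (he.ne hij)⟩

lemma Fits.congr {ι : Type*} {S : Set (Fin n → ℝ)} {sz sz' : ι → ℝ} (h : Fits S sz)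
    (he : ∀ i, sz i = sz' i) : Fits S sz' := by
  rwa [show sz' = sz from (funext he).symm]

/-- Two disjoint regions together. -/
lemma Fits.union {ι : Type*} (p : ι → Prop) [DecidablePred p] {S S' : Set (Fin n → ℝ)}
    (hSS : Disjoint S S') {sz : ι → ℝ} (h : Fits S fun i : {i // p i} => sz i)
    (h' : Fits S' fun i : {i // ¬p i} => sz i) : Fits (S ∪ S') sz := by
  obtain ⟨c, c1, c2⟩ := h
  obtain ⟨d, d1, d2⟩ := h'
  refine ⟨fun i => if hi : p i then c ⟨i, hi⟩ else d ⟨i, hi⟩, ?_, ?_⟩
  · intro i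
    by_cases hi : p i
    · simp only [dif_pos hi]; exact (c1 ⟨i, hi⟩).trans Set.subset_union_left
    · simp only [dif_neg hi]; exact (d1 ⟨i, hi⟩).trans Set.subset_union_right
  · intro i j hij
    by_cases hi : p i <;> by_cases hj : p j
    · simp only [dif_pos hi, dif_pos hj]
      exact @c2 ⟨i, hi⟩ ⟨j, hj⟩ (fun h => hij (congrArg Subtype.val h))
    · simp only [dif_pos hi, dif_neg hj]
      exact hSS.mono (c1 ⟨i, hi⟩) (d1 ⟨j, hj⟩)
    · simp only [dif_neg hi, dif_pos hj]
      exact hSS.symm.mono (d1 ⟨i, hi⟩) (c1 ⟨j, hj⟩)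
    · simp only [dif_neg hi, dif_neg hj]
      exact @d2 ⟨i, hi⟩ ⟨j, hj⟩ (fun h => hij (congrArg Subtype.val h))

lemma fits_empty {ι : Type*} [IsEmpty ι] (S : Set (Fin n → ℝ)) (sz : ι → ℝ) : Fits S sz :=
  ⟨fun i => isEmptyElim i, fun i => isEmptyElim i, fun i => isEmptyElim i⟩

/-- The identity cell. -/
lemma fits_self (s : ℝ) {ι : Type*} [Subsingleton ι] : Fits (simp0 n s) (fun _ : ι => s) :=
  ⟨fun _ => ⟨1, 0⟩, fun _ => by
      rintro _ ⟨u, hu, rfl⟩
      convert hu using 1
      funext j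
      simp [Cell.act],
    fun i j h => absurd (Subsingleton.elim i j) h⟩

/-- Sorting key. -/
def sortKey {m : ℕ} (f : Fin n → Fin m) (i : Fin n) : ℕ := n * (f i).1 + i.1

/-- The cell indexed by `f`, translated by `a`. -/
def gridCell (s a : ℝ) {m : ℕ} (f : Fin n → Fin m) : Cell n :=
  ⟨Tuple.sort (sortKey f), fun j => a + s * ((f (Tuple.sort (sortKey f) j)).1 : ℝ)⟩

lemma sortKey_strictMono {m : ℕ} (f : Fin n → Fin m) :
    StrictMono (sortKey f ∘ Tuple.sort (sortKey f)) := by
  apply (Tuple.monotone_sort (sortKey f)).strictMono_of_injective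
  apply Function.Injective.comp _ (Equiv.injective _)
  intro i j h
  have hi := i.2
  have hj := j.2
  simp only [sortKey] at h
  rcases lt_trichotomy (f i).1 (f j).1 with hl | hl | hl
  · have := Nat.mul_le_mul_left n (Nat.succ_le_of_lt hl)
    rw [Nat.mul_succ] at this
    omega
  · rw [hl] at h; exact Fin.ext (by omega)
  · have := Nat.mul_le_mul_left n (Nat.succ_le_of_lt hl)
    rw [Nat.mul_succ] at this
    omega

lemma gridCell_mem {s a : ℝ} (hs : 0 < s) (ha : 0 ≤ a) {m : ℕ} (f : Fin n → Fin m)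
    {u : Fin n → ℝ} (hu : u ∈ simp0 n s) :
    (gridCell s a f).act u ∈ simp0 n (a + s * m) := by
  set π := Tuple.sort (sortKey f) with hπ
  refine ⟨fun i j hij => ?_, fun j => ?_⟩
  · have hk := sortKey_strictMono f hij
    simp only [Function.comp_apply, sortKey, ← hπ] at hk
    have h1 := (π i).2
    have h2 := (π j).2
    simp only [Cell.act, gridCell, ← hπ]
    rcases lt_trichotomy (f (π i)).1 (f (π j)).1 with hl | hl | hl
    · have : ((f (π i)).1 : ℝ) + 1 ≤ (f (π j)).1 := by exact_mod_cast hl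
      have := mul_le_mul_of_nonneg_left this hs.le
      linarith [(hu.2 (π i)).2, (hu.2 (π j)).1]
    · rw [hl] at hk ⊢
      linarith [hu.1 (show π i < π j from by rw [Fin.lt_def]; omega)]
    · have := Nat.mul_le_mul_left n (Nat.succ_le_of_lt hl)
      rw [Nat.mul_succ] at this
      omega
  · simp only [Cell.act, gridCell, ← hπ]
    have h1 : ((f (π j)).1 : ℝ) + 1 ≤ m := by exact_mod_cast (f (π j)).2
    have := mul_le_mul_of_nonneg_left h1 hs.le
    have h0 : 0 ≤ s * ((f (π j)).1 : ℝ) := by positivity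
    constructor <;> linarith [(hu.2 (π j)).1, (hu.2 (π j)).2]

lemma gridCell_disjoint {s a : ℝ} (hs : 0 < s) {m : ℕ} {f g : Fin n → Fin m} (hfg : f ≠ g) :
    Disjoint ((gridCell s a f).act '' simp0 n s) ((gridCell s a g).act '' simp0 n s) := by
  rw [Set.disjoint_left]
  rintro y ⟨u, hu, rfl⟩ ⟨u', hu', he⟩
  apply hfg
  set π := Tuple.sort (sortKey f) with hπ
  set π' := Tuple.sort (sortKey g) with hπ'
  have h : ∀ j, f (π j) = g (π' j) ∧ u (π j) = u' (π' j) := by
    intro j
    have e := congrFun he j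
    simp only [Cell.act, gridCell, ← hπ, ← hπ'] at e
    have b := hu.2 (π j)
    have b' := hu'.2 (π' j)
    have : (f (π j)).1 = (g (π' j)).1 := by
      rcases lt_trichotomy (f (π j)).1 (g (π' j)).1 with hl | hl | hl
      · have : ((f (π j)).1 : ℝ) + 1 ≤ (g (π' j)).1 := by exact_mod_cast hl
        have := mul_le_mul_of_nonneg_left this hs.le
        linarith
      · exact hl
      · have : ((g (π' j)).1 : ℝ) + 1 ≤ (f (π j)).1 := by exact_mod_cast hl
        have := mul_le_mul_of_nonneg_left this hs.le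
        linarith
    exact ⟨Fin.ext this, by rw [this] at e; linarith⟩
  have huu : u = u' := by
    refine (StrictMono.range_inj hu.1 hu'.1).1 ?_
    ext x
    constructor
    · rintro ⟨i, rfl⟩; exact ⟨π' (π.symm i), by rw [← (h _).2, Equiv.apply_symm_apply]⟩
    · rintro ⟨i, rfl⟩; exact ⟨π (π'.symm i), by rw [(h _).2, Equiv.apply_symm_apply]⟩
  funext i
  have h2 := h (π.symm i)
  rw [Equiv.apply_symm_apply] at h2
  rw [← huu] at h2
  have : i = π' (π.symm i) := hu.1.injective h2.2
  rw [h2.1, ← this]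

/-- All `m ^ n` cells. -/
lemma fits_grid {s : ℝ} (hs : 0 < s) (m : ℕ) :
    Fits (simp0 n (s * m)) (fun _ : Fin n → Fin m => s) :=
  ⟨gridCell s 0, fun f => by
      rintro _ ⟨u, hu, rfl⟩
      simpa using gridCell_mem hs le_rfl f hu,
    fun _ _ h => gridCell_disjoint hs h⟩

/-- The part of the simplex above level `t`. -/
def slab (n : ℕ) (t T : ℝ) : Set (Fin n → ℝ) := {y | y ∈ simp0 n T ∧ ∃ j, t < y j}

lemma simp0_mono {s T : ℝ} (h : s ≤ T) : simp0 n s ⊆ simp0 n T :=
  fun _ hy => ⟨hy.1, fun j => ⟨(hy.2 j).1, (hy.2 j).2.trans_le h⟩⟩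

lemma disjoint_simp0_slab {s t T : ℝ} (h : s ≤ t) : Disjoint (simp0 n s) (slab n t T) :=
  Set.disjoint_left.2 fun y hy hy' => by
    obtain ⟨j, hj⟩ := hy'.2
    linarith [(hy.2 j).2]

lemma simp0_union_slab_subset {s t T : ℝ} (h : s ≤ T) : simp0 n s ∪ slab n t T ⊆ simp0 n T :=
  Set.union_subset (simp0_mono h) fun _ hy => hy.1

/-- Index type of one layer. -/
abbrev LayerIdx (n : ℕ) (t s : ℝ) : Type :=
  {f : Fin n → Fin (⌊t / s⌋₊ + 1) // ∃ i, f i = Fin.last _}

lemma fits_layer {t s : ℝ} (ht : 0 ≤ t) (hs : 0 < s) :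
    Fits (slab n t (t + s)) (fun _ : LayerIdx n t s => s) := by
  set q := ⌊t / s⌋₊ with hq
  have hq' : (q : ℝ) * s ≤ t := by
    rw [← le_div_iff₀ hs]; exact Nat.floor_le (div_nonneg ht hs.le)
  refine ⟨fun f => gridCell s (t - s * q) f.1, ?_, fun f g h => gridCell_disjoint hs
    (fun e => h (Subtype.ext e))⟩
  rintro ⟨f, i, hi⟩ _ ⟨u, hu, rfl⟩
  have h := gridCell_mem hs (show (0:ℝ) ≤ t - s * q by linarith) f hu
  refine ⟨by convert h using 2; push_cast; ring, (Tuple.sort (sortKey f)).symm i, ?_⟩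
  simp only [Cell.act, gridCell, Equiv.apply_symm_apply, hi, Fin.val_last]
  linarith [(hu.2 i).1]

lemma pow_le_card_layer_add (t s : ℝ) :
    (⌊t / s⌋₊ + 1) ^ n ≤ Fintype.card (LayerIdx n t s) + ⌊t / s⌋₊ ^ n := by
  have h := Fintype.card_subtype_compl (fun f : Fin n → Fin (⌊t / s⌋₊ + 1) => ∃ i, f i = Fin.last _)
  have h1 : Fintype.card {f : Fin n → Fin (⌊t / s⌋₊ + 1) // ¬∃ i, f i = Fin.last _} ≤
      ⌊t / s⌋₊ ^ n := by
    have := Fintype.card_le_of_injective
      (fun f : {f : Fin n → Fin (⌊t / s⌋₊ + 1) // ¬∃ i, f i = Fin.last _} =>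
        fun i => (f.1 i).castPred (fun e => f.2 ⟨i, e⟩))
      (fun f g e => Subtype.ext (funext fun i => Fin.castPred_inj.1 (congrFun e i)))
    simpa using this
  have h2 : Fintype.card (Fin n → Fin (⌊t / s⌋₊ + 1)) = (⌊t / s⌋₊ + 1) ^ n := by simp
  have h3 : Fintype.card (LayerIdx n t s) =
      Fintype.card {f : Fin n → Fin (⌊t / s⌋₊ + 1) // ∃ i, f i = Fin.last _} := rfl
  omega

lemma pow_gap_mono (n : ℕ) {x y h : ℝ} (hy : 0 ≤ y) (hxy : y ≤ x) (hh : 0 ≤ h) :
    (y + h) ^ n - y ^ n ≤ (x + h) ^ n - x ^ n := by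
  induction n with
  | zero => simp
  | succ k ih =>
    have h1 : 0 ≤ (y + h) ^ k - y ^ k :=
      sub_nonneg.2 (pow_le_pow_left₀ hy (by linarith) k)
    have h2 := mul_le_mul (show y + h ≤ x + h by linarith) ih h1 (by linarith)
    have h3 := mul_le_mul_of_nonneg_left (pow_le_pow_left₀ hy hxy k) hh
    nlinarith [pow_succ (y + h) k, pow_succ y k, pow_succ (x + h) k, pow_succ x k]

lemma layer_volume (hn : n ≠ 0) {t s : ℝ} (ht : 0 ≤ t) (hs : 0 < s) :
    t ^ n - (max (t - s) 0) ^ n ≤ Fintype.card (LayerIdx n t s) * s ^ n := by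
  set q := ⌊t / s⌋₊ with hq
  have hcard : ((q : ℝ) + 1) ^ n - (q : ℝ) ^ n ≤ Fintype.card (LayerIdx n t s) := by
    have h : (((q + 1) ^ n : ℕ) : ℝ) ≤ ((Fintype.card (LayerIdx n t s) + q ^ n : ℕ) : ℝ) :=
      Nat.cast_le.2 (pow_le_card_layer_add t s)
    push_cast at h
    linarith
  have hlt : t < ((q : ℝ) + 1) * s := by rw [← div_lt_iff₀ hs]; exact Nat.lt_floor_add_one _
  have hsn := pow_pos hs n
  calc t ^ n - max (t - s) 0 ^ n ≤ (((q : ℝ) + 1) ^ n - (q : ℝ) ^ n) * s ^ n := by
        rw [sub_mul, ← mul_pow, ← mul_pow]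
        rcases le_total s t with hst | hst
        · rw [max_eq_left (by linarith)]
          have := pow_gap_mono n (y := t - s) (x := (q : ℝ) * s) (h := s) (by linarith)
            (by linarith) hs.le
          rw [sub_add_cancel] at this
          rw [add_one_mul]
          exact this
        · rw [max_eq_right (by linarith), zero_pow hn, sub_zero]
          have := pow_gap_mono n (y := 0) (x := (q : ℝ) * s) (h := s) le_rfl (by positivity) hs.le
          rw [zero_add, zero_pow hn, sub_zero] at this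
          rw [add_one_mul]
          exact (pow_le_pow_left₀ ht hst n).trans this
    _ ≤ _ := mul_le_mul_of_nonneg_right hcard hsn.le

/-- Composition of cells. -/
def Cell.comp (c d : Cell n) : Cell n :=
  ⟨c.perm.trans d.perm, fun j => d.shift (c.perm j) + c.shift j⟩

lemma Cell.comp_act (c d : Cell n) (u : Fin n → ℝ) : (c.comp d).act u = c.act (d.act u) := by
  funext j
  simp [Cell.comp, Cell.act]
  ring

lemma Cell.act_injective (c : Cell n) : Function.Injective c.act := fun u v h => by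
  funext l
  simpa [Cell.act] using congrFun h (c.perm.symm l)

/-- Subdivide every cell into `2 ^ n` cells of half the size. -/
lemma Fits.subdivide {ι : Type*} {S : Set (Fin n → ℝ)} {s : ℝ} (hs : 0 < s)
    (h : Fits S (fun _ : ι => s)) : Fits S (fun _ : ι × (Fin n → Fin 2) => s / 2) := by
  obtain ⟨c, c1, c2⟩ := h
  obtain ⟨d, d1, d2⟩ := fits_grid (n := n) (half_pos hs) 2
  have d1' : ∀ f, (d f).act '' simp0 n (s / 2) ⊆ simp0 n s := fun f => by
    simpa [div_mul_cancel₀] using d1 f
  have e : ∀ p : ι × (Fin n → Fin 2), ((c p.1).comp (d p.2)).act '' simp0 n (s / 2) =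
      (c p.1).act '' ((d p.2).act '' simp0 n (s / 2)) := fun p => by
    rw [Set.image_image]; exact Set.image_congr' fun u => Cell.comp_act _ _ u
  refine ⟨fun p => (c p.1).comp (d p.2), fun p => ?_, fun p p' hp => ?_⟩
  · rw [e]; exact (Set.image_mono (d1' _)).trans (c1 _)
  · simp only [e]
    by_cases h1 : p.1 = p'.1
    · rw [h1]
      exact (Set.disjoint_image_iff (Cell.act_injective _)).2
        (d2 fun h2 => hp (Prod.ext h1 h2))
    · exact (c2 h1).mono (Set.image_mono (d1' _)) (Set.image_mono (d1' _))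

/-- Dyadic allocation. -/
lemma fits_dyadic (J : ℕ) : ∀ {ι κ : Type} [Fintype ι] [Fintype κ] {S : Set (Fin n → ℝ)} {s : ℝ},
    0 < s → Fits S (fun _ : κ => s) → ∀ lev : ι → ℕ, (∀ i, lev i ≤ J) →
    (∑ i, (2 ^ n) ^ (J - lev i)) ≤ Fintype.card κ * (2 ^ n) ^ J →
    Fits S (fun i => s / 2 ^ lev i) := by
  classical
  induction J with
  | zero =>
    intro ι κ _ _ S s _ hfit lev hlev hsum
    simp only [Nat.zero_sub, pow_zero, Finset.sum_const, smul_eq_mul, mul_one] at hsum
    obtain ⟨e⟩ := Function.Embedding.nonempty_of_card_le (show Fintype.card ι ≤ Fintype.card κ by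
      simpa using hsum)
    refine (hfit.reindex e e.injective).congr fun i => ?_
    simp [Nat.le_zero.1 (hlev i)]
  | succ J ih =>
    intro ι κ _ _ S s hs hfit lev hlev hsum
    set Q := 2 ^ n with hQ
    have hQ0 : 0 < Q := by positivity
    have hsplit := Fintype.sum_subtype_add_sum_subtype (fun i => lev i = 0)
      (fun i => Q ^ (J + 1 - lev i))
    have hz : ∑ i : {i // lev i = 0}, Q ^ (J + 1 - lev i.1) =
        Fintype.card {i // lev i = 0} * Q ^ (J + 1) := by
      rw [Finset.sum_congr rfl fun i _ => by rw [i.2, Nat.sub_zero]]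
      simp
    have hle : Fintype.card {i // lev i = 0} ≤ Fintype.card κ :=
      Nat.le_of_mul_le_mul_right (by omega) (pow_pos hQ0 (J + 1))
    obtain ⟨e⟩ := Function.Embedding.nonempty_of_card_le hle
    set κ' := {k : κ // k ∉ Set.range e} with hκ'
    have hcard : Fintype.card κ' + Fintype.card {i // lev i = 0} = Fintype.card κ := by
      have h1 := Fintype.card_subtype_compl (fun k : κ => k ∈ Set.range e)
      have h2 : Fintype.card {k : κ // k ∈ Set.range e} = Fintype.card {i // lev i = 0} :=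
        (Fintype.card_congr (Equiv.ofInjective e e.injective)).symm
      simp only [hκ'] at *
      omega
    have hmem := hfit.reindex (Sum.elim e (Subtype.val : κ' → κ)) (by
      rintro (a | a) (b | b) hab
      · exact congrArg _ (e.injective hab)
      · exact absurd ⟨a, hab⟩ b.2
      · exact absurd ⟨b, hab.symm⟩ a.2
      · exact congrArg _ (Subtype.ext hab))
    obtain ⟨c, c1, c2⟩ := hmem
    have hA : Fits (⋃ a, (c (Sum.inl a)).act '' simp0 n s) (fun i : {i // lev i = 0} => s / 2 ^ lev i.1) :=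
      ⟨fun a => c (Sum.inl a), fun a => by
        simp only [a.2, pow_zero, div_one]; exact Set.subset_iUnion (fun a => (c (Sum.inl a)).act '' simp0 n s) a,
       fun a b hab => by
        simp only [a.2, b.2, pow_zero, div_one]
        exact c2 (fun h => hab (Sum.inl_injective h))⟩
    have hB0 : Fits (⋃ a, (c (Sum.inr a)).act '' simp0 n s) (fun _ : κ' => s) :=
      ⟨fun a => c (Sum.inr a), fun a => Set.subset_iUnion (fun a => (c (Sum.inr a)).act '' simp0 n s) a,
       fun a b hab => c2 (fun h => hab (Sum.inr_injective h))⟩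
    have hB := ih (ι := {i // ¬lev i = 0}) (half_pos hs) (hB0.subdivide hs)
      (fun i => lev i.1 - 1) (fun i => by have := hlev i.1; omega) (by
        have e1 : ∀ i : {i // ¬lev i = 0}, Q ^ (J - (lev i.1 - 1)) = Q ^ (J + 1 - lev i.1) :=
          fun i => by congr 1; have := i.2; omega
        rw [Finset.sum_congr rfl fun i _ => e1 i]
        have e2 : Fintype.card (κ' × (Fin n → Fin 2)) = Fintype.card κ' * Q := by simp [hQ]
        rw [e2, mul_assoc, ← pow_succ']
        have e3 : Fintype.card κ * Q ^ (J + 1) = Fintype.card κ' * Q ^ (J + 1) +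
            Fintype.card {i // lev i = 0} * Q ^ (J + 1) := by rw [← add_mul, hcard]
        omega)
    have hB' : Fits (⋃ a, (c (Sum.inr a)).act '' simp0 n s)
        (fun i : {i // ¬lev i = 0} => s / 2 ^ lev i.1) := hB.congr fun i => by
      obtain ⟨l, hl⟩ := Nat.exists_eq_succ_of_ne_zero i.2
      rw [hl, Nat.succ_eq_add_one, Nat.add_sub_cancel, pow_succ']
      ring
    refine (Fits.union (fun i => lev i = 0) ?_ hA hB').mono ?_
    · simp only [Set.disjoint_iUnion_left, Set.disjoint_iUnion_right]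
      exact fun a b => c2 (by simp)
    · exact Set.union_subset (Set.iUnion_subset fun a => c1 _) (Set.iUnion_subset fun a => c1 _)

end

end Vale.Agent.P209
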