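import Mathlib
import Vale.Agent.P209.Cells

/-!
Three sufficient conditions for packings, by allocating balls to cells.
-/

open Set Finset
open scoped BigOperators

namespace Vale.Agent.P209

variable {n k : ℕ}

noncomputable section

lemma pow_sub_pow_le (n : ℕ) {x y : ℝ} (hy : 0 ≤ y) (hxy : y ≤ x) :
    x ^ n - y ^ n ≤ n * (x - y) * x ^ (n - 1) := by
  induction n with
  | zero => simp
  | succ m ih =>
    have hx : 0 ≤ x := hy.trans hxy
    have h1 := mul_le_mul_of_nonneg_left (pow_le_pow_left₀ hy hxy m) (sub_nonneg.2 hxy)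
    have h2 := mul_le_mul_of_nonneg_left ih hx
    rcases Nat.eq_zero_or_pos m with rfl | hm
    · simp
    · have h3 : x * x ^ (m - 1) = x ^ m := by rw [← pow_succ', Nat.sub_add_cancel hm]
      rw [show m + 1 - 1 = m by omega]
      have h4 : x * ((m:ℝ) * (x - y) * x ^ (m - 1)) = (m:ℝ) * (x - y) * x ^ m := by rw [← h3]; ring
      push_cast
      rw [pow_succ' x m, pow_succ' y m]
      linarith

lemma le_pow_sub_pow {n : ℕ} (hn : n ≠ 0) {x y : ℝ} (hy : 0 ≤ y) (hxy : y ≤ x) :
    (x - y) * x ^ (n - 1) ≤ x ^ n - y ^ n := by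
  obtain ⟨m, rfl⟩ := Nat.exists_eq_succ_of_ne_zero hn
  have := mul_le_mul_of_nonneg_left (pow_le_pow_left₀ hy hxy m) hy
  rw [Nat.succ_eq_add_one, Nat.add_sub_cancel, pow_succ', pow_succ']
  linarith

lemma mul_two_pow_le (n : ℕ) : (n : ℝ) * 2 ^ n ≤ 3 ^ n := by
  rcases n with _ | _ | m
  · simp
  · norm_num
  · induction m with
    | zero => norm_num
    | succ j ih =>
      have h2 : (0:ℝ) < 2 ^ (j + 1 + 1) := by positivity
      push_cast at ih ⊢
      rw [pow_succ (2:ℝ) (j + 1 + 1), pow_succ (3:ℝ) (j + 1 + 1)]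
      nlinarith

/-- A packing from fitting cells. -/
lemma packs_of_fits {R : ℝ} (hR : 0 < R) {r sz : Fin k → ℝ} (hr : ∀ i, 0 < r i)
    (hrs : ∀ i, r i < sz i) (h : Fits (simp0 n R) sz) : Packs n R r :=
  let ⟨c, h1, h2⟩ := h
  packs_of_cells hR hr c sz hrs h1 h2

/-- One big ball in the corner, the others in the slab above it. -/
lemma fits_split {R t : ℝ} (ht : t ≤ R) (i0 : Fin k) {sz : Fin k → ℝ} (h0 : sz i0 = t)
    (h : Fits (slab n t R) (fun i : {i // ¬i = i0} => sz i)) : Fits (simp0 n R) sz :=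
  ((Fits.union (fun i => i = i0) (disjoint_simp0_slab le_rfl)
    ((fits_self (n := n) t).congr fun i => by rw [i.2, h0]) h)).mono
    (simp0_union_slab_subset ht)

/-- The volume of the balls other than `i0`. -/
def restVolume (n : ℕ) (r : Fin k → ℝ) (i0 : Fin k) : ℝ :=
  ∑ i ∈ Finset.univ.erase i0, r i ^ n

lemma sum_subtype_rest (r : Fin k → ℝ) (i0 : Fin k) :
    ∑ i : {i // ¬i = i0}, r i.1 ^ n = restVolume n r i0 := by
  rw [restVolume, ← Finset.sum_subtype (Finset.univ.erase i0) (by simp) (fun i => r i ^ n)]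

lemma two_pow_sub_one_le_card {t s : ℝ} (hs : 0 < s) (hst : s ≤ t) :
    2 ^ n - 1 ≤ Fintype.card (LayerIdx n t s) := by
  have hq : 1 ≤ ⌊t / s⌋₊ := Nat.le_floor (by rw [Nat.cast_one, le_div_iff₀ hs, one_mul]; exact hst)
  have h1 : ((1:ℝ) + 1) ^ n - 1 ^ n ≤ ((⌊t / s⌋₊ : ℝ) + 1) ^ n - (⌊t / s⌋₊ : ℝ) ^ n :=
    pow_gap_mono n zero_le_one (by exact_mod_cast hq) zero_le_one
  have h2 : (((⌊t / s⌋₊ + 1) ^ n : ℕ) : ℝ) ≤
      ((Fintype.card (LayerIdx n t s) + ⌊t / s⌋₊ ^ n : ℕ) : ℝ) :=
    Nat.cast_le.2 (pow_le_card_layer_add t s)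
  push_cast at h2
  norm_num at h1
  have h3 : ((2 ^ n : ℕ) : ℝ) ≤ ((Fintype.card (LayerIdx n t s) + 1 : ℕ) : ℝ) := by
    push_cast; linarith
  have := Nat.cast_le.1 h3
  omega

/-- For at most `2 ^ n` balls, the pairwise conditions suffice. -/
theorem packs_of_le_two_pow {R : ℝ} (hR : 0 < R) {r : Fin k → ℝ} (hr : ∀ i, 0 < r i)
    (hrR : ∀ i, r i < R) (hpair : ∀ i j, i < j → r i + r j < R) (hk : k ≤ 2 ^ n) :
    Packs n R r := by
  classical
  rcases Nat.eq_zero_or_pos k with rfl | hk0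
  · exact packs_of_fits hR hr (sz := r) (fun i => i.elim0) (fits_empty _ _)
  have : Nonempty (Fin k) := ⟨⟨0, hk0⟩⟩
  obtain ⟨i0, hi0⟩ := Finite.exists_max r
  rcases lt_or_ge (r i0) (R / 2) with hlt | hge
  · have h := fits_grid (n := n) (half_pos hR) 2
    obtain ⟨e⟩ := Function.Embedding.nonempty_of_card_le
      (show Fintype.card (Fin k) ≤ Fintype.card (Fin n → Fin 2) by simpa using hk)
    refine packs_of_fits hR hr (sz := fun _ => R / 2) (fun i => (hi0 i).trans_lt hlt)
      (((h.reindex e e.injective).mono ?_).congr fun _ => rfl)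
    rw [Nat.cast_ofNat, div_mul_cancel₀ _ (two_ne_zero' ℝ)]
  · set rest : Fin k → ℝ := fun i => if i = i0 then 0 else r i with hrest
    obtain ⟨i1, hi1⟩ := Finite.exists_max rest
    have hq0 : 0 ≤ rest i1 := le_trans (by simp [hrest]) (hi1 i0)
    have hq : rest i1 < R - r i0 := by
      simp only [hrest]
      split_ifs with h
      · linarith [hrR i0]
      · rcases lt_or_gt_of_ne h with h' | h'
        · linarith [hpair _ _ h']
        · linarith [hpair _ _ h']
    set t : ℝ := (r i0 + R - rest i1) / 2 with ht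
    set s : ℝ := R - t with hs
    have hlayer := fits_layer (n := n) (t := t) (s := s) (by linarith) (by linarith)
    rw [show t + s = R by linarith] at hlayer
    obtain ⟨e⟩ := Function.Embedding.nonempty_of_card_le
      (show Fintype.card {i // ¬i = i0} ≤ Fintype.card (LayerIdx n t s) from le_trans (by
        rw [Fintype.card_subtype_compl, Fintype.card_fin, Fintype.card_subtype_eq]; omega)
        (two_pow_sub_one_le_card (by linarith) (by linarith)))
    refine packs_of_fits hR hr (sz := fun i => if i = i0 then t else s) (fun i => ?_)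
      (fits_split (t := t) (by linarith) i0 (if_pos rfl)
        ((hlayer.reindex e e.injective).congr fun i => (if_neg i.2).symm))
    split_ifs with h
    · subst h; linarith
    · have := hi1 i
      simp only [hrest, if_neg h] at this hq ht
      simp only [hrest] at *
      linarith

lemma exists_level {r s : ℝ} (hr : 0 < r) (hrs : r < s) :
    ∃ j : ℕ, r < s / 2 ^ j ∧ s / 2 ^ j ≤ 2 * r := by
  classical
  have hex : ∃ j : ℕ, s / 2 ^ (j + 1) ≤ r := by
    obtain ⟨j, hj⟩ := pow_unbounded_of_one_lt (s / r) one_lt_two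
    refine ⟨j, ?_⟩
    rw [div_le_iff₀ (by positivity)]
    rw [div_lt_iff₀ hr] at hj
    nlinarith [pow_succ (2:ℝ) j, mul_pos hr (pow_pos (two_pos (α := ℝ)) j)]
  refine ⟨Nat.find hex, ?_, ?_⟩
  · rcases Nat.eq_zero_or_pos (Nat.find hex) with h | h
    · simpa [h] using hrs
    · have h' : Nat.find hex - 1 + 1 = Nat.find hex := by omega
      have := Nat.find_min hex (Nat.sub_lt h one_pos)
      rw [h', not_le] at this
      exact this
  · have h1 := Nat.find_spec hex
    rw [pow_succ, ← div_div, div_le_iff₀ two_pos] at h1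
    linarith

lemma fits_by_volume {ι κ : Type} [Fintype ι] [Fintype κ] {S : Set (Fin n → ℝ)} {s : ℝ}
    (hs : 0 < s) (hfit : Fits S (fun _ : κ => s)) {r : ι → ℝ} (lev : ι → ℕ)
    (hsum : ∑ i, r i ≤ Fintype.card κ) (hlev : ∀ i, (1 / 2 ^ lev i) ^ n ≤ r i) :
    Fits S (fun i => s / 2 ^ lev i) := by
  set J := Finset.univ.sup lev with hJ
  have hle : ∀ i, lev i ≤ J := fun i => Finset.le_sup (Finset.mem_univ i)
  refine fits_dyadic J hs hfit lev hle ?_
  have h : ((∑ i, (2 ^ n) ^ (J - lev i) : ℕ) : ℝ) ≤ ((Fintype.card κ * (2 ^ n) ^ J : ℕ) : ℝ) := by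
    push_cast
    have e : ∀ i, (((2:ℝ) ^ n) ^ (J - lev i)) = (2 ^ n) ^ J * (1 / 2 ^ lev i) ^ n := by
      intro i
      rw [pow_sub₀ _ (by positivity) (hle i), one_div, inv_pow, ← pow_mul, ← pow_mul, ← pow_mul,
        mul_comm (lev i)]
    calc (∑ i, ((2:ℝ) ^ n) ^ (J - lev i)) ≤ ∑ i, (2 ^ n) ^ J * r i :=
          Finset.sum_le_sum fun i _ => by
            rw [e i]; exact mul_le_mul_of_nonneg_left (hlev i) (by positivity)
      _ ≤ (2 ^ n) ^ J * Fintype.card κ := by
          rw [← Finset.mul_sum]; exact mul_le_mul_of_nonneg_left hsum (by positivity)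
      _ = _ := mul_comm _ _
  exact Nat.cast_le.1 h

lemma level_weight {r s : ℝ} (hs : 0 < s) {j : ℕ} (hj : s / 2 ^ j ≤ 2 * r) :
    (1 / 2 ^ j : ℝ) ^ n ≤ (2 / s) ^ n * r ^ n := by
  rw [← mul_pow]
  refine pow_le_pow_left₀ (by positivity) ?_ n
  have h : (1 : ℝ) / 2 ^ j = s / 2 ^ j / s := by field_simp
  rw [h]
  calc s / 2 ^ j / s ≤ 2 * r / s := div_le_div_of_nonneg_right hj hs.le
    _ = 2 / s * r := by ring

/-- Up to a constant factor in the volume, the two conditions suffice. -/
theorem packs_of_volume_constant (hn : n ≠ 0) {R : ℝ} (hR : 0 < R) {r : Fin k → ℝ}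
    (hr : ∀ i, 0 < r i) (hpair : ∀ i j, i < j → r i + r j < R) (i0 : Fin k)
    (hi0 : ∀ i, r i ≤ r i0) (hi0R : r i0 < R)
    (hvol : 6 ^ n * restVolume n r i0 ≤ R ^ n - r i0 ^ n) : Packs n R r := by
  classical
  have hrest0 : 0 ≤ restVolume n r i0 := Finset.sum_nonneg fun i _ => by
    have := hr i; positivity
  rcases lt_or_ge (r i0) (R / 2) with hlt | hge
  · have hs := half_pos hR
    choose lev hl1 hl2 using fun i => exists_level (hr i) ((hi0 i).trans_lt hlt)
    set lev' : Fin k → ℕ := fun i => if i = i0 then 0 else lev i with hlev'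
    set w : Fin k → ℝ := fun i => if i = i0 then 1 else (2 / (R / 2)) ^ n * r i ^ n with hw
    have hgrid := fits_grid (n := n) hs 2
    rw [Nat.cast_ofNat, div_mul_cancel₀ _ (two_ne_zero' ℝ)] at hgrid
    have hfit : Fits (simp0 n R) (fun i => R / 2 / 2 ^ lev' i) := by
      refine fits_by_volume hs hgrid lev' (r := w) ?_ (fun i => ?_)
      · have hsum : ∑ i, w i = 1 + (2 / (R / 2)) ^ n * restVolume n r i0 := by
          rw [← Finset.add_sum_erase _ _ (Finset.mem_univ i0), restVolume, Finset.mul_sum]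
          congr 1
          · simp [hw]
          · exact Finset.sum_congr rfl fun i hi => by simp [hw, (Finset.mem_erase.1 hi).1]
        have hone : (2 / (R / 2)) ^ n * restVolume n r i0 ≤ 1 := by
          have hRn : 0 < R ^ n := pow_pos hR n
          have h1 : (4:ℝ) ^ n * restVolume n r i0 ≤ R ^ n := by
            have : (4:ℝ) ^ n ≤ 6 ^ n := pow_le_pow_left₀ (by norm_num) (by norm_num) n
            have := mul_le_mul_of_nonneg_right this hrest0
            have := pow_pos (hr i0) n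
            linarith
          rw [show 2 / (R / 2) = 4 / R by ring, div_pow, div_mul_eq_mul_div, div_le_one hRn]
          exact h1
        have h2 : (2:ℝ) ≤ 2 ^ n := le_self_pow₀ one_le_two hn
        simp only [hsum, Fintype.card_fun, Fintype.card_fin, Nat.cast_pow, Nat.cast_ofNat]
        linarith
      · simp only [hw, hlev']
        split_ifs
        · simp
        · exact level_weight hs (hl2 i)
    refine packs_of_fits hR hr (fun i => ?_) hfit
    simp only [hlev']
    split_ifs with h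
    · simpa [h] using hlt
    · exact hl1 i
  · set rest : Fin k → ℝ := fun i => if i = i0 then 0 else r i with hrest
    have : Nonempty (Fin k) := ⟨i0⟩
    obtain ⟨i1, hi1⟩ := Finite.exists_max rest
    have hq : rest i1 < R - r i0 := by
      simp only [hrest]
      split_ifs with h
      · linarith
      · rcases lt_or_gt_of_ne h with h' | h'
        · linarith [hpair _ _ h']
        · linarith [hpair _ _ h']
    have hq0 : 0 ≤ rest i1 := le_trans (by simp [hrest]) (hi1 i0)
    set t : ℝ := (r i0 + R - rest i1) / 2 with ht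
    set s : ℝ := R - t with hs
    have hs0 : 0 < s := by linarith
    have hrs : ∀ i : {i // ¬i = i0}, r i.1 < s := fun i => by
      have := hi1 i.1
      simp only [hrest, if_neg i.2] at this
      simp only [hrest] at *
      linarith
    choose lev hl1 hl2 using fun i : {i // ¬i = i0} => exists_level (hr i.1) (hrs i)
    have hlayer := fits_layer (n := n) (t := t) (s := s) (by linarith [hr i0]) hs0
    rw [show t + s = R by linarith] at hlayer
    have hfit : Fits (slab n t R) (fun i => s / 2 ^ lev i) := by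
      refine fits_by_volume hs0 hlayer lev (r := fun i => (2 / s) ^ n * r i.1 ^ n) ?_
        (fun i => level_weight hs0 (hl2 i))
      rw [← Finset.mul_sum, sum_subtype_rest]
      obtain ⟨m, rfl⟩ := Nat.exists_eq_succ_of_ne_zero hn
      set a : ℝ := (⌊t / s⌋₊ : ℝ) with ha
      have hcount : (R / (2 * s)) ^ m ≤ Fintype.card (LayerIdx (m + 1) t s) := by
        have h : (((⌊t / s⌋₊ + 1) ^ (m + 1) : ℕ) : ℝ) ≤
            ((Fintype.card (LayerIdx (m + 1) t s) + ⌊t / s⌋₊ ^ (m + 1) : ℕ) : ℝ) :=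
          Nat.cast_le.2 (pow_le_card_layer_add t s)
        push_cast at h
        have ha0 : 0 ≤ a := Nat.cast_nonneg _
        have h1 : (a + 1) ^ m ≤ (a + 1) ^ (m + 1) - a ^ (m + 1) := by
          have := mul_le_mul_of_nonneg_left (pow_le_pow_left₀ ha0 (by linarith : a ≤ a + 1) m) ha0
          rw [pow_succ', pow_succ']
          linarith
        have h2 : R / (2 * s) ≤ a + 1 := by
          have : t / s < a + 1 := Nat.lt_floor_add_one _
          refine le_trans ?_ this.le
          rw [← div_div]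
          exact div_le_div_of_nonneg_right (by linarith) hs0.le
        have := pow_le_pow_left₀ (by positivity) h2 m
        linarith
      refine le_trans ?_ hcount
      have h3 := pow_sub_pow_le (m + 1) (hr i0).le hi0R.le
      rw [Nat.add_sub_cancel] at h3
      have h4 := mul_two_pow_le (m + 1)
      have hRm : 0 ≤ R ^ m := by positivity
      set V := restVolume (m + 1) r i0 with hV
      set A : ℝ := ((m + 1 : ℕ) : ℝ) with hA
      have hA0 : 0 ≤ A := Nat.cast_nonneg _
      have hS : R - r i0 ≤ 2 * s := by linarith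
      have h5 : 6 ^ (m + 1) * V ≤ A * (2 * s) * R ^ m :=
        hvol.trans (h3.trans (mul_le_mul_of_nonneg_right (mul_le_mul_of_nonneg_left hS hA0) hRm))
      rw [div_pow, div_pow, mul_pow, div_mul_eq_mul_div,
        div_le_div_iff₀ (by positivity) (by positivity)]
      have h6 : (0:ℝ) < 3 ^ (m + 1) := by positivity
      refine le_of_mul_le_mul_left ?_ h6
      have e6 : (6:ℝ) ^ (m + 1) = 3 ^ (m + 1) * 2 ^ (m + 1) := by rw [← mul_pow]; norm_num
      calc (3:ℝ) ^ (m + 1) * (2 ^ (m + 1) * V * (2 ^ m * s ^ m))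
          = 6 ^ (m + 1) * V * (2 ^ m * s ^ m) := by rw [e6]; ring
        _ ≤ A * (2 * s) * R ^ m * (2 ^ m * s ^ m) := mul_le_mul_of_nonneg_right h5 (by positivity)
        _ = A * 2 ^ (m + 1) * (R ^ m * s ^ (m + 1)) := by ring
        _ ≤ 3 ^ (m + 1) * (R ^ m * s ^ (m + 1)) :=
            mul_le_mul_of_nonneg_right h4 (by positivity)
    refine packs_of_fits hR hr (sz := fun i => if h : i = i0 then t else s / 2 ^ lev ⟨i, h⟩)
      (fun i => ?_) (fits_split (t := t) (by linarith) i0 (dif_pos rfl)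
        (hfit.congr fun i => by simp [i.2]))
    split_ifs with h
    · subst h; linarith
    · exact hl1 ⟨i, h⟩

lemma fits_layers (hn : n ≠ 0) {R t s : ℝ} (ht : 0 ≤ t) (hs : 0 < s) (hR : 0 < R)
    {ι : Type} [Fintype ι]
    (hvol : t ^ n + Fintype.card ι * s ^ n + 2 * n * R ^ (n - 1) * s ≤ R ^ n) :
    ∃ T, t ≤ T ∧ T ≤ R ∧ T ^ n ≤ t ^ n + Fintype.card ι * s ^ n + 2 * n * R ^ (n - 1) * s ∧
      Fits (slab n t T) (fun _ : ι => s) := by
  classical
  set cnt : ℕ → ℕ := fun L => ∑ l : Fin L, Fintype.card (LayerIdx n (t + l.1 * s) s) with hcnt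
  have hpos : ∀ x : ℝ, 0 < Fintype.card (LayerIdx n x s) := fun x =>
    Fintype.card_pos_iff.2 ⟨⟨fun _ => Fin.last _, ⟨⟨0, Nat.pos_of_ne_zero hn⟩, rfl⟩⟩⟩
  have hgrow : ∀ L, L ≤ cnt L := fun L => by
    calc L = ∑ _l : Fin L, 1 := by simp
      _ ≤ _ := Finset.sum_le_sum fun l _ => hpos _
  have hex : ∃ L, Fintype.card ι ≤ cnt L := ⟨_, hgrow _⟩
  set L := Nat.find hex with hL
  have hLs : Fintype.card ι ≤ cnt L := Nat.find_spec hex
  have htel : ∀ M : ℕ, (max (t + ((M:ℝ) - 1) * s) 0) ^ n - (max (t - s) 0) ^ n ≤ cnt M * s ^ n := by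
    intro M
    induction M with
    | zero => simp [hcnt, ← sub_eq_add_neg]
    | succ M ih =>
      have hM : (0:ℝ) ≤ M := Nat.cast_nonneg _
      have h := layer_volume hn (t := t + (M:ℝ) * s) (by positivity) hs
      have e : cnt (M + 1) = cnt M + Fintype.card (LayerIdx n (t + (M:ℝ) * s) s) := by
        simp [hcnt, Fin.sum_univ_castSucc]
      rw [e]
      push_cast
      rw [show t + ((M:ℝ) - 1) * s = t + (M:ℝ) * s - s by ring] at ih
      rw [show t + ((M:ℝ) + 1 - 1) * s = t + (M:ℝ) * s by ring,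
        max_eq_left (show 0 ≤ t + (M:ℝ) * s by positivity)]
      linarith
  have hsn : (0:ℝ) < s ^ n := pow_pos hs n
  set A : ℝ := t ^ n + Fintype.card ι * s ^ n with hA
  have hbound : (max (t + (L:ℝ) * s - 2 * s) 0) ^ n ≤ A := by
    rcases Nat.eq_zero_or_pos L with h0 | h0
    · rw [h0, Nat.cast_zero, zero_mul, add_zero]
      have : max (t - 2 * s) 0 ≤ t := max_le (by linarith) ht
      have := pow_le_pow_left₀ (le_max_right _ _) this n
      have : (0:ℝ) ≤ Fintype.card ι * s ^ n := by positivity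
      linarith
    · have hmin := Nat.find_min hex (Nat.sub_lt h0 one_pos)
      rw [not_le] at hmin
      have h := htel (L - 1)
      have hcast : ((L - 1 : ℕ) : ℝ) = (L:ℝ) - 1 := by rw [Nat.cast_sub h0]; simp
      rw [hcast] at h
      have h2 : (max (t - s) 0) ^ n ≤ t ^ n :=
        pow_le_pow_left₀ (le_max_right _ _) (max_le (by linarith) ht) n
      have h3 : (cnt (L - 1) : ℝ) * s ^ n ≤ Fintype.card ι * s ^ n :=
        mul_le_mul_of_nonneg_right (Nat.cast_le.2 hmin.le) hsn.le
      rw [show t + ((L:ℝ) - 1 - 1) * s = t + (L:ℝ) * s - 2 * s by ring] at h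
      linarith
  have hA0 : 0 ≤ A := by positivity
  have h2s : 2 * s ≤ R := by
    by_contra hcon
    have h1 : R ^ n < 2 * n * R ^ (n - 1) * s := by
      have e : R ^ n = R * R ^ (n - 1) := by rw [← pow_succ', Nat.sub_add_cancel (Nat.pos_of_ne_zero hn)]
      have h1n : (1:ℝ) ≤ n := by exact_mod_cast Nat.pos_of_ne_zero hn
      have : R < 2 * n * s := by
        nlinarith [mul_le_mul_of_nonneg_right h1n hs.le]
      rw [e, show 2 * (n:ℝ) * R ^ (n - 1) * s = (2 * n * s) * R ^ (n - 1) by ring]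
      exact mul_lt_mul_of_pos_right this (pow_pos hR _)
    linarith
  set T := t + (L:ℝ) * s with hT
  have hTt : t ≤ T := by
    have : (0:ℝ) ≤ (L:ℝ) * s := by positivity
    linarith
  have hTR : T ≤ R := by
    by_contra hcon
    have h1 := pow_sub_pow_le n (by linarith : 0 ≤ R - 2 * s) (by linarith : R - 2 * s ≤ R)
    have h2 : (R - 2 * s) ^ n < (max (T - 2 * s) 0) ^ n :=
      pow_lt_pow_left₀ (lt_max_of_lt_left (by linarith)) (by linarith) hn
    have : (n:ℝ) * (R - (R - 2 * s)) * R ^ (n - 1) = 2 * n * R ^ (n - 1) * s := by ring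
    linarith
  refine ⟨T, hTt, hTR, ?_, ?_⟩
  · have hT0 : 0 ≤ T := ht.trans hTt
    have h1 := pow_sub_pow_le n (le_max_right (T - 2 * s) 0)
      (max_le (by linarith) hT0 : max (T - 2 * s) 0 ≤ T)
    have h2 : (n:ℝ) * (T - max (T - 2 * s) 0) * T ^ (n - 1) ≤ 2 * n * R ^ (n - 1) * s := by
      have a1 : T - max (T - 2 * s) 0 ≤ 2 * s := by linarith [le_max_left (T - 2 * s) 0]
      have a2 : T ^ (n - 1) ≤ R ^ (n - 1) := pow_le_pow_left₀ hT0 hTR _
      calc _ ≤ (n:ℝ) * (2 * s) * R ^ (n - 1) :=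
            mul_le_mul (mul_le_mul_of_nonneg_left a1 (Nat.cast_nonneg _)) a2 (pow_nonneg hT0 _)
              (by positivity)
        _ = _ := by ring
    linarith
  · have hcard : Fintype.card ι ≤ Fintype.card (Σ l : Fin L, LayerIdx n (t + l.1 * s) s) := by
      rw [Fintype.card_sigma]; exact hLs
    obtain ⟨e⟩ := Function.Embedding.nonempty_of_card_le hcard
    choose c hc hd using fun l : Fin L => fits_layer (n := n) (t := t + (l.1:ℝ) * s)
      (by positivity) hs
    have hsub : ∀ l : Fin L, slab n (t + (l.1:ℝ) * s) (t + (l.1:ℝ) * s + s) ⊆ slab n t T := by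
      intro l y hy
      have hl : (l.1:ℝ) + 1 ≤ L := by exact_mod_cast l.2
      have := mul_le_mul_of_nonneg_right hl hs.le
      obtain ⟨j, hj⟩ := hy.2
      have : 0 ≤ (l.1:ℝ) * s := by positivity
      exact ⟨simp0_mono (by linarith) hy.1, j, by linarith⟩
    have hsep : ∀ l l' : Fin L, l < l' →
        Disjoint (slab n (t + (l.1:ℝ) * s) (t + (l.1:ℝ) * s + s))
          (slab n (t + (l'.1:ℝ) * s) (t + (l'.1:ℝ) * s + s)) := by
      intro l l' hll
      have h1 : (l.1:ℝ) + 1 ≤ l'.1 := by exact_mod_cast hll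
      have := mul_le_mul_of_nonneg_right h1 hs.le
      exact Disjoint.mono_left (fun y hy => hy.1) (disjoint_simp0_slab (by linarith))
    have hall : Fits (slab n t T) (fun _ : Σ l : Fin L, LayerIdx n (t + l.1 * s) s => s) := by
      refine ⟨fun p => c p.1 p.2, fun p => (hc p.1 p.2).trans (hsub p.1), ?_⟩
      rintro ⟨l, a⟩ ⟨l', b⟩ hab
      rcases lt_trichotomy l l' with h | h | h
      · exact (hsep l l' h).mono (hc l a) (hc l' b)
      · subst h
        exact hd l (fun h => hab (by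
          simp only at h
          rw [h]))
      · exact (hsep l' l h).symm.mono (hc l a) (hc l' b)
    exact (hall.reindex e e.injective)

lemma fits_classes (hn : n ≠ 0) {R : ℝ} (hR : 0 < R) {t : ℝ} (ht : 0 ≤ t) (htR : t ≤ R)
    (σ : ℕ → ℝ) (hσ : ∀ j, 0 < σ j) (J : ℕ) : ∀ {ι : Type} [Fintype ι] (cls : ι → ℕ),
    (∀ i, cls i < J) →
    t ^ n + ∑ i, σ (cls i) ^ n + 2 * n * R ^ (n - 1) * ∑ j ∈ Finset.range J, σ j ≤ R ^ n →
    ∃ T, t ≤ T ∧ T ≤ R ∧
      T ^ n ≤ t ^ n + ∑ i, σ (cls i) ^ n + 2 * n * R ^ (n - 1) * ∑ j ∈ Finset.range J, σ j ∧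
      Fits (slab n t T) (fun i => σ (cls i)) := by
  classical
  induction J with
  | zero =>
    intro ι _ cls hcls _
    have : IsEmpty ι := ⟨fun i => absurd (hcls i) (Nat.not_lt_zero _)⟩
    exact ⟨t, le_rfl, htR, by simp, fits_empty _ _⟩
  | succ J ih =>
    intro ι _ cls hcls hvol
    have hsplit := Fintype.sum_subtype_add_sum_subtype (fun i => cls i < J)
      (fun i => σ (cls i) ^ n)
    have heq : ∀ i : {i // ¬cls i < J}, cls i.1 = J := fun i => by
      have := hcls i.1; have := i.2; omega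
    have hlast : ∑ i : {i // ¬cls i < J}, σ (cls i.1) ^ n =
        Fintype.card {i // ¬cls i < J} * σ J ^ n := by
      rw [Finset.sum_congr rfl fun i _ => by rw [heq i]]
      simp
    have hσn : 0 ≤ σ J ^ n := (pow_pos (hσ J) n).le
    have hc0 : (0:ℝ) ≤ 2 * n * R ^ (n - 1) * σ J := by
      have := hσ J; positivity
    rw [Finset.sum_range_succ, mul_add] at hvol ⊢
    have hN0 : (0:ℝ) ≤ Fintype.card {i // ¬cls i < J} * σ J ^ n := by positivity
    obtain ⟨T₁, hT1, hT1R, hT1v, hfit1⟩ := ih (fun i : {i // cls i < J} => cls i.1)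
      (fun i => i.2) (by linarith)
    obtain ⟨T₂, hT2, hT2R, hT2v, hfit2⟩ := fits_layers hn (ι := {i // ¬cls i < J})
      (ht.trans hT1) (hσ J) hR (by linarith)
    refine ⟨T₂, hT1.trans hT2, hT2R, by linarith, ?_⟩
    refine (Fits.union (fun i => cls i < J)
      (Disjoint.mono_left (fun y hy => hy.1) (disjoint_simp0_slab le_rfl)) hfit1
      (hfit2.congr fun i => by rw [heq i])).mono (Set.union_subset ?_ ?_)
    · exact fun y hy => ⟨simp0_mono hT2 hy.1, hy.2⟩
    · rintro y ⟨hy, j, hj⟩; exact ⟨hy, j, hT1.trans_lt hj⟩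

/-- Small remaining balls: almost the whole volume can be used. -/
theorem packs_of_small (hn : n ≠ 0) {δ : ℝ} (hδ : 0 < δ) :
    ∃ η : ℝ, 0 < η ∧ ∀ (k : ℕ) (R : ℝ) (r : Fin k → ℝ) (i0 : Fin k),
      0 < R → (∀ i, 0 < r i) → r i0 < R → (∀ i, i ≠ i0 → r i ≤ η * (R - r i0)) →
      restVolume n r i0 ≤ (1 - δ) * (R ^ n - r i0 ^ n) → Packs n R r := by
  classical
  set d : ℝ := min δ (1 / 2) with hd
  have hd0 : 0 < d := lt_min hδ (by norm_num)
  have hd1 : d ≤ 1 / 2 := min_le_right _ _
  have hn1 : (1:ℝ) ≤ n := by exact_mod_cast Nat.pos_of_ne_zero hn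
  have h2n : (0:ℝ) < 2 ^ n := by positivity
  set a : ℝ := d / (2 * (n * 2 ^ n)) with ha
  have ha0 : 0 < a := by positivity
  have haeq : a * (2 * (n * 2 ^ n)) = d := div_mul_cancel₀ _ (by positivity)
  have ha1 : a ≤ 1 := by
    have : (1:ℝ) ≤ n * 2 ^ n := by
      have : (1:ℝ) ≤ 2 ^ n := one_le_pow₀ one_le_two
      nlinarith
    nlinarith
  set C : ℝ := n + 4 * n * ((1 + a) / a) with hC
  have hC0 : 0 < C := by positivity
  set η : ℝ := min (1 / 4) (d / (2 * C)) with hη
  have hη0 : 0 < η := lt_min (by norm_num) (by positivity)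
  have hη4 : η ≤ 1 / 4 := min_le_left _ _
  have hηC : η * C ≤ d / 2 := by
    have := mul_le_mul_of_nonneg_right (min_le_right (1 / 4) (d / (2 * C))) hC0.le
    rwa [show d / (2 * C) * C = d / 2 by field_simp] at this
  refine ⟨η, hη0, fun k R r i0 hR hr hi0R hsmall hvol => ?_⟩
  set S : ℝ := R - r i0 with hS
  have hS0 : 0 < S := by linarith
  set t : ℝ := r i0 + η * S with ht
  have hηS : 0 < η * S := mul_pos hη0 hS0
  have htR : t ≤ R := by
    have := mul_le_mul_of_nonneg_right (show η ≤ 1 by linarith) hS0.le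
    linarith
  have ht0 : 0 ≤ t := by linarith [hr i0]
  set σ : ℕ → ℝ := fun j => 2 * (η * S) * (1 / (1 + a)) ^ j with hσdef
  have hσ : ∀ j, 0 < σ j := fun j => by positivity
  have hex : ∀ i : {i // ¬i = i0}, ∃ j : ℕ, σ (j + 1) ≤ r i.1 := by
    intro i
    obtain ⟨j, hj⟩ := exists_pow_lt_of_lt_one (div_pos (hr i.1) (by positivity : (0:ℝ) < 2 * (η * S)))
      (show 1 / (1 + a) < 1 by rw [div_lt_one (by linarith)]; linarith)
    refine ⟨j, ?_⟩
    have h1 : (1 / (1 + a)) ^ (j + 1) ≤ (1 / (1 + a)) ^ j :=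
      pow_le_pow_of_le_one (by positivity) (by rw [div_le_one (by linarith)]; linarith) (by omega)
    rw [lt_div_iff₀ (by positivity)] at hj
    have := mul_le_mul_of_nonneg_left h1 (show (0:ℝ) ≤ 2 * (η * S) by positivity)
    simp only [hσdef]
    linarith
  set cls : {i // ¬i = i0} → ℕ := fun i => Nat.find (hex i) with hcls
  have hlt : ∀ i, r i.1 < σ (cls i) := by
    intro i
    rcases Nat.eq_zero_or_pos (cls i) with h | h
    · rw [h]
      simp only [hσdef, pow_zero, mul_one]
      linarith [hsmall i.1 i.2]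
    · have := Nat.find_min (hex i) (show cls i - 1 < cls i by omega)
      have h' : cls i - 1 + 1 = cls i := by omega
      rw [h', not_le] at this
      exact this
  have hup : ∀ i, σ (cls i) ≤ (1 + a) * r i.1 := by
    intro i
    have h := Nat.find_spec (hex i)
    have := mul_le_mul_of_nonneg_left h (show (0:ℝ) ≤ 1 + a by linarith)
    refine le_trans (le_of_eq ?_) this
    simp only [hσdef, hcls, pow_succ]
    field_simp
  set J := Finset.univ.sup cls + 1 with hJ
  have hgeo : ∑ j ∈ Finset.range J, σ j ≤ 2 * (η * S) * ((1 + a) / a) := by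
    simp only [hσdef, ← Finset.mul_sum]
    refine mul_le_mul_of_nonneg_left ?_ (by positivity)
    have hx0 : (0:ℝ) ≤ 1 / (1 + a) := by positivity
    have hx1 : 1 / (1 + a) < 1 := by rw [div_lt_one (by linarith)]; linarith
    calc _ ≤ ∑' j : ℕ, (1 / (1 + a)) ^ j :=
          (summable_geometric_of_lt_one hx0 hx1).sum_le_tsum _ (fun j _ => pow_nonneg hx0 j)
      _ = (1 + a) / a := by
          rw [tsum_geometric_of_lt_one hx0 hx1, one_sub_div (by linarith), add_sub_cancel_left,
            inv_div]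
  have hW0 : 0 ≤ restVolume n r i0 := Finset.sum_nonneg fun i _ => by
    have := hr i; positivity
  have hpa : (1 + a) ^ n ≤ 1 + d / 2 := by
    have := pow_sub_pow_le n zero_le_one (show (1:ℝ) ≤ 1 + a by linarith)
    rw [one_pow, show 1 + a - 1 = a by ring] at this
    have h2 : (1 + a) ^ (n - 1) ≤ 2 ^ n :=
      (pow_le_pow_left₀ (by linarith) (by linarith) _).trans
        (pow_le_pow_right₀ one_le_two (Nat.sub_le _ _))
    have := mul_le_mul_of_nonneg_left h2 (show (0:ℝ) ≤ (n:ℝ) * a by positivity)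
    nlinarith
  have hV : S * R ^ (n - 1) ≤ R ^ n - r i0 ^ n := le_pow_sub_pow hn (hr i0).le hi0R.le
  have hV0 : 0 ≤ R ^ n - r i0 ^ n := le_trans (by positivity) hV
  have hsum : ∑ i, σ (cls i) ^ n ≤ (1 - d / 2) * (R ^ n - r i0 ^ n) := by
    have h1 : ∑ i, σ (cls i) ^ n ≤ (1 + a) ^ n * restVolume n r i0 := by
      rw [← sum_subtype_rest, Finset.mul_sum]
      exact Finset.sum_le_sum fun i _ => by
        rw [← mul_pow]; exact pow_le_pow_left₀ (hσ _).le (hup i) n
    have h2 : restVolume n r i0 ≤ (1 - d) * (R ^ n - r i0 ^ n) :=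
      hvol.trans (mul_le_mul_of_nonneg_right (by linarith [min_le_left δ (1 / 2)]) hV0)
    have h3 : (1 + a) ^ n * restVolume n r i0 ≤
        (1 + d / 2) * ((1 - d) * (R ^ n - r i0 ^ n)) :=
      mul_le_mul hpa h2 hW0 (by linarith)
    refine h1.trans (h3.trans ?_)
    rw [← mul_assoc]
    exact mul_le_mul_of_nonneg_right (by nlinarith) hV0
  have htn : t ^ n ≤ r i0 ^ n + n * (η * S) * R ^ (n - 1) := by
    have h := pow_sub_pow_le n (hr i0).le (show r i0 ≤ t by linarith)
    rw [show t - r i0 = η * S by linarith] at h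
    have := mul_le_mul_of_nonneg_left (pow_le_pow_left₀ ht0 htR (n - 1))
      (show (0:ℝ) ≤ (n:ℝ) * (η * S) by positivity)
    linarith
  have hRn : (0:ℝ) ≤ R ^ (n - 1) := by positivity
  have hmain : t ^ n + ∑ i, σ (cls i) ^ n + 2 * n * R ^ (n - 1) * ∑ j ∈ Finset.range J, σ j
      ≤ R ^ n := by
    have h1 := mul_le_mul_of_nonneg_left hgeo (show (0:ℝ) ≤ 2 * n * R ^ (n - 1) by positivity)
    have h2 : η * C * (S * R ^ (n - 1)) ≤ d / 2 * (R ^ n - r i0 ^ n) :=
      mul_le_mul hηC hV (by positivity) (by linarith)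
    have h3 : η * C * (S * R ^ (n - 1)) = n * (η * S) * R ^ (n - 1) +
        2 * n * R ^ (n - 1) * (2 * (η * S) * ((1 + a) / a)) := by rw [hC]; ring
    linarith
  obtain ⟨T, _, hTR, _, hfit⟩ := fits_classes hn hR ht0 htR σ hσ J cls
    (fun i => Nat.lt_succ_of_le (Finset.le_sup (Finset.mem_univ i))) hmain
  refine packs_of_fits hR hr (sz := fun i => if h : i = i0 then t else σ (cls ⟨i, h⟩))
    (fun i => ?_) (fits_split htR i0 (dif_pos rfl)
      ((hfit.mono (S' := slab n t R) fun y hy => ⟨simp0_mono hTR hy.1, hy.2⟩).congr fun i => by simp [i.2]))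
  split_ifs with h
  · subst h; linarith
  · exact hlt ⟨i, h⟩

end

end Vale.Agent.P209
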